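import Vale.Agent.P057CO.Iso

/-!
Regularisation of all tiers.
-/

set_option linter.all false

open Matrix Finset
open scoped Real
open Vale.Agent.P267.H775 Vale.Agent.P057G Vale.Agent.P057MA Vale.Agent.P057SY Vale.Agent.P057PC
open Vale.Agent.P057T1 (gsc qq_gsc)

namespace Vale.Agent.P057CO

noncomputable section

section step

variable {V ι κ E E' : Type} [DecidableEq V] [Fintype V] [Fintype ι] [DecidableEq ι] [Fintype κ]
  [DecidableEq κ] [Fintype E] [DecidableEq E] [Fintype E'] [DecidableEq E'] {S : MS V ι}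
  {X : Xt V ι E}

theorem nb_nonneg [Nonempty V] (h : S.Ok) (hc : S.Cen) {θ : (ι → ℝ) → ℝ}
    (hθ : ∀ v, Lin (S.st v) θ) : 0 ≤ nb S θ :=
  div_nonneg (h.bias_nonneg hc univ (Classical.arbitrary V) (hθ _)) (vl_pos h.pd _).le

theorem Rg.mono {e : E' → E} {d τ N N' : ℕ} {lam Z U Z' U' : ℝ} {X' : Xt V ι E'}
    {P : (ι ⊕ E' → ℝ) → ι ⊕ E → ℝ} (R : Rg S X e d lam X' P τ N Z U) (h : S.Ok) (hN : N' ≤ N)
    (hZ : Z' ≤ Z) (hU : U ≤ U') : Rg S X e d lam X' P τ N' Z' U' := by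
  have l1 : 1 ≤ lam := le_trans (by exact_mod_cast R.d0) R.dl
  have e1 := Real.exp_le_exp.2 hU
  have e2 := Real.exp_le_exp.2 (neg_le_neg hZ)
  exact ⟨R.inj, R.fc, R.tr, R.d0, R.dl, R.lam_le.trans e1, R.ok, R.cen,
    ⟨R.sz.tr, R.sz.card.trans hU, R.sz.sep, R.sz.cx.trans e1⟩, R.mor, R.inl, R.tier,
    R.smo.mono (ok_xt (ok_dil h univ l1) R.ok) R.cen (cls_univ _) (cls_univ _) Subset.rfl hN
      (Real.exp_pos _) (Real.exp_le_exp.2 hZ) e2, fun ψ hψ => (R.tf ψ hψ).trans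
      (mul_le_mul_of_nonneg_left (by gcongr) (th_nonneg _ _))⟩

theorem rg_step [Nonempty V] (h : S.Ok) (hX : X.Ok S) (hc : (xt S X).Cen) {w : ℝ} (hw : 1 ≤ w)
    {e1 : κ → {e // X.tr e = 0}} {d1 : ℕ} {lam1 : ℝ} {G' : Matrix κ κ ℝ} {pn' : (ι → ℝ) → κ → ℝ}
    {P1 : (ι ⊕ κ → ℝ) → ι ⊕ {e // X.tr e = 0} → ℝ} (a1 : Function.Injective e1) (a2 : 0 < d1)
    (a3 : (d1 : ℝ) ≤ lam1) (ht' : TopOk (dil S univ lam1) (fun j => X.fc (e1 j)) G' pn')
    (hM : Mor (top (dil S univ lam1) (fun j => X.fc (e1 j)) G' pn')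
      (top S (fun j : {e // X.tr e = 0} => X.fc j) (w ^ 2 • bk X.G fun e => X.tr e = 0) (p0 X)) P1)
    (hl : ∀ z, P1 z ∘ Sum.inl = scl S univ d1 (z ∘ Sum.inl))
    (hs : ∀ k : κ → ℤ, k ≠ 0 → 1 ≤ qq G' (toR k))
    (hm : (top (dil S univ lam1) (fun j => X.fc (e1 j)) G' pn').mass univ ≤ 2)
    {e2 : E' → {e // ¬ X.tr e = 0}} {d2 τ N : ℕ} {lam2 Z1 U1 : ℝ} {Y : Xt V (ι ⊕ κ) E'}
    {P2 : ((ι ⊕ κ) ⊕ E' → ℝ) → (ι ⊕ κ) ⊕ {e // ¬ X.tr e = 0} → ℝ}
    (R : Rg (top (dil S univ lam1) (fun j => X.fc (e1 j)) G' pn') (pull (x1 X) P1 0) e2 d2 lam2 Y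
      P2 τ N Z1 U1) {Z U ρ ε : ℝ} (n1 : Real.exp Z * 2 ^ Fintype.card V ≤ Real.exp Z1)
    (n2 : Z ≤ Z1) (n3 : lam1 * (lam2 * 2) ≤ Real.exp U) (n4 : (Fintype.card E : ℝ) ≤ U)
    (n5 : ((lam2 * 2) ^ Fintype.card V) ^ Fintype.card κ * th G'⁻¹ 0 *
      ((2 ^ Fintype.card V) ^ Fintype.card E' * Real.exp U1) ≤ Real.exp U)
    (n6 : 1 ≤ ρ) (e0 : 0 < ε) (e1' : ε ≤ 1 / 3) (n7 : ρ ^ Fintype.card V ≤ w * ε)
    (n8 : 26 * ε + 4 * (Real.exp (-(π * ρ ^ 2 / 2)) * √2 ^ Fintype.card (ι ⊕ κ)) ≤ Real.exp (-Z)) :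
    Rg S X (Sum.elim (fun j => (e1 j).1) fun j => (e2 j).1) (d1 * d2) (lam1 * (lam2 * 2))
      (jo (fun j => X.fc (e1 j)) G' pn' lam2 Y)
      (fun z => up P1 (P2 (z ∘ Equiv.sumAssoc ι κ E')) ∘ (i1 X).symm) (τ + 1) N Z U := by
  have l1 : 1 ≤ lam1 := le_trans (by exact_mod_cast a2) a3
  have l2 : 1 ≤ lam2 := le_trans (by exact_mod_cast R.d0) R.dl
  have hSc := cen_base hc
  have ht := topOk_t0 h hX hc
  have hT : (t0 S X).Ok := ok_top h ht
  have htn : TopOk S (fun j : {e // X.tr e = 0} => X.fc j) (w ^ 2 • bk X.G fun e => X.tr e = 0)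
      (p0 X) :=
    ⟨ht.pd.smul (by positivity), fun i j e => ht.ort i j fun h0 => e (by simp [h0]), ht.ne, ht.fm⟩
  have h1 := ok_top (ok_dil h univ l1) ht'
  have h1c := cen_top (ok_dil h univ l1) (cen_dil hSc univ lam1) ht'
  have hP : Fmp _ (t0 S X) P1 := hM.fm
  have hA := ok_xt hT (ok_x1 hX)
  have hAc := (iso1 hX).symm.cen hc
  have hB := ok_xt h1 (ok_pull (ok_x1 hX) hP 0)
  have hC := ok_xt (ok_dil h1 univ l2) R.ok
  have hF : Fmp _ (xt (t0 S X) (x1 X)) fun z => up P1 (P2 z) := fun i =>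
    Fmp.fm R.mor.fm ((hP.up 0) i)
  have q0 := qq_nonneg ht.pd.posSemidef
  have hD : Mor (dil (xt (dil (top (dil S univ lam1) (fun j => X.fc (e1 j)) G' pn') univ lam2) Y)
      univ 2) (xt (t0 S X) (x1 X)) fun z => up P1 (P2 z) := by
    refine mor_two hF (fun i => R.mor.intV (f := fun x => up P1 x i) ?_) hC R.cen hA hAc
      fun z hz => ?_
    · rcases i with i | e
      exacts [fun z => hM.int i (z ∘ Sum.inl), IntV.coord (Sum.inr e)]
    · have b1 := R.mor.ball z hz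
      rw [ln2_xt] at b1 ⊢
      have b2 := ln2_nonneg (q := univ) h1 (P2 z ∘ Sum.inl)
      have b3 := qq_nonneg (ok_x1 hX).pd.posSemidef (P2 z ∘ Sum.inr - (x1 X).g (up P1 (P2 z)))
      simp only [pull, Sum.elim_zero_zero, add_zero] at b1
      have b4 := hM.ball (P2 z ∘ Sum.inl) (by linarith)
      rw [ln2_top, qq_smul_mat] at b4
      have b5 := ln2_top (S := S) (fn := fun j : {e // X.tr e = 0} => X.fc j)
        (Gn := bk X.G fun e => X.tr e = 0) (pn := p0 X) (P1 (P2 z ∘ Sum.inl))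
      have b6 := le_mul_of_one_le_left (q0 (P1 (P2 z ∘ Sum.inl) ∘ Sum.inr -
        p0 X (P1 (P2 z ∘ Sum.inl) ∘ Sum.inl))) (one_le_pow₀ (n := 2) hw)
      change ln2 (top _ _ _ _) univ (P1 (P2 z ∘ Sum.inl)) + qq _ (P2 z ∘ Sum.inr - _) ≤ 4
      linarith
  have hin : ∀ z : ι ⊕ (κ ⊕ E') → ℝ, P2 (z ∘ Equiv.sumAssoc ι κ E') ∘ Sum.inl = scl _ univ d2
    ((z ∘ Equiv.sumAssoc ι κ E') ∘ Sum.inl) := fun z => R.inl _
  have inj : Function.Injective (Sum.elim (fun j => (e1 j).1) fun j => (e2 j).1) := by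
    rintro (a | a) (b | b) hab
    · exact congrArg _ (a1 (Subtype.ext hab))
    · exact absurd ((congrArg X.tr hab).symm.trans (e1 a).2) (e2 b).2
    · exact absurd ((congrArg X.tr hab).trans (e1 b).2) (e2 a).2
    · exact congrArg _ (R.inj (Subtype.ext hab))
  have g1 : ∀ i j, G' i j ≠ 0 → (lam2 * 2) ^ (X.fc (e1 i) ∩ univ).card =
      (lam2 * 2) ^ (X.fc (e1 j) ∩ univ).card := fun i j e => by
    rw [show X.fc (e1 i) = X.fc (e1 j) from ht'.ort i j e]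
  have g2 : ∀ i j, Y.G i j ≠ 0 → (2 : ℝ) ^ (Y.fc i ∩ univ).card = 2 ^ (Y.fc j ∩ univ).card :=
    fun i j e => by rw [(R.ok.ort i j e).1]
  have g3 : ∀ i, 1 ≤ (lam2 * 2) ^ (X.fc (e1 i) ∩ univ).card := fun _ => one_le_pow₀ (by linarith)
  have g4 : ∀ i, 1 ≤ (2 : ℝ) ^ (Y.fc i ∩ univ).card := fun _ => one_le_pow₀ one_le_two
  refine ⟨inj, fun j => ?_, fun j => ?_, Nat.mul_pos a2 R.d0, ?_, n3, ok_jo h l1 l2 ht' R.ok,
    iso2.cen (cen_dil R.cen univ 2), ⟨fun j => ?_, le_trans (Nat.cast_le.2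
      (Fintype.card_le_of_injective _ inj)) n4, fun k hk => ?_, ?_⟩,
    (iso1 hX).symm.mor.comp (hD.comp iso2.mor), fun z => ?_, fun j z z' k1 k2 => ?_,
    iso2.smo (Smo.dil hC R.cen (Real.exp_pos Z) one_le_two (R.smo.mono hC R.cen (cls_univ _)
      (cls_univ _) Subset.rfl le_rfl (by positivity) n1 (Real.exp_le_exp.2 (neg_le_neg n2)))),
    fun ψ hψ => ?_⟩
  · rcases j with j | j
    exacts [rfl, R.fc j]
  · rcases j with j | j
    · exact (e1 j).2.symm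
    · exact (congrArg (· + 1) (R.tr j)).trans (Nat.succ_pred_eq_of_ne_zero (e2 j).2)
  · push_cast
    exact mul_le_mul a3 (by linarith [R.dl]) (Nat.cast_nonneg _) (by linarith)
  · rcases j with j | j
    exacts [Nat.succ_pos _, Nat.succ_lt_succ (R.sz.tr j)]
  · refine le_trans ?_ (qq_blocks _ _ _).ge
    have b1 := le_gsc ht'.pd g1 g3 (toR (k ∘ Sum.inl))
    have b2 := le_gsc R.ok.pd g2 g4 (toR (k ∘ Sum.inr))
    have b3 := qq_nonneg ht'.pd.posSemidef (toR (k ∘ Sum.inl))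
    have b4 := qq_nonneg R.ok.pd.posSemidef (toR (k ∘ Sum.inr))
    change 1 ≤ qq _ (toR (k ∘ Sum.inl)) + qq _ (toR (k ∘ Sum.inr))
    by_cases h0 : k ∘ Sum.inl = 0
    · linarith [R.sz.sep (k ∘ Sum.inr) fun e => hk (by
        rw [← Sum.elim_comp_inl_inr k, h0, e, Sum.elim_zero_zero])]
    · linarith [hs _ h0]
  · refine (th_blocks (pd_gsc ht'.pd g1 g3) (pd_gsc R.ok.pd g2 g4)).trans_le (le_trans ?_ n5)
    exact mul_le_mul (th_gsc ht'.pd g1 g3 (one_le_pow₀ (by linarith))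
      fun _ => pow_le_pow_right₀ (by linarith) (card_le_univ _)) ((th_gsc R.ok.pd g2 g4
        (one_le_pow₀ one_le_two) fun _ => pow_le_pow_right₀ one_le_two (card_le_univ _)).trans
        (mul_le_mul_of_nonneg_left R.sz.cx (by positivity))) (th_nonneg _ _)
      (mul_nonneg (by positivity) (th_nonneg _ _))
  · change P1 (P2 _ ∘ Sum.inl) ∘ Sum.inl = _
    rw [hl, hin, Nat.cast_mul, ← scl_scl]; rfl
  · have k3 : (z ∘ Equiv.sumAssoc ι κ E') ∘ Sum.inl = (z' ∘ Equiv.sumAssoc ι κ E') ∘ Sum.inl := by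
      funext a
      rcases a with i | j
      exacts [congrFun k1 i, k2 (Sum.inl j) (Nat.zero_le _)]
    by_cases h0 : X.tr j = 0
    · simp only [Function.comp_apply, i1_pos h0]
      change P1 (P2 _ ∘ Sum.inl) _ = P1 (P2 _ ∘ Sum.inl) _
      rw [hin, hin, k3]
    · simp only [Function.comp_apply, i1_neg h0]
      exact R.tier ⟨j, h0⟩ _ _ k3 fun j' hj => k2 (Sum.inr j') (by
        change Y.tr j' ≤ X.tr j - 1 at hj
        change Y.tr j' + 1 ≤ _
        omega)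
  · have m1 : ∀ v, Lin ((xt (t0 S X) (x1 X)).st v) fun z => ψ (z ∘ (i1 X).symm) :=
      fun v => (iso1 hX).symm.mor.lin (hψ v)
    have b1 := tf_one h hSc ht (ok_x1 hX) hAc a2 a3 ht' hP hM.int hl e0 e1' (r := ρ ^ 2)
      (fun y hy => by
        have c1 := mor_large hM h1 h1c (ok_top h htn) (cen_top h hSc htn) n6 hy
        rw [ln2_top, qq_smul_mat] at c1
        have c2 := pow_le_pow_left₀ (by positivity) n7 2
        have c3 := ln2_nonneg (q := univ) h (P1 y ∘ Sum.inl)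
        exact le_of_mul_le_mul_left (by linarith) (by positivity : 0 < w ^ 2)) hm m1
    have b2 := R.tf _ fun v => (hP.up 0).lin (m1 v)
    have b3 := nb_dil hC R.cen one_le_two fun v => hF.lin (m1 v)
    rw [← iso2.nb_eq] at b3
    have b4 := mul_le_mul_of_nonneg_left (Real.exp_le_exp.2 (neg_le_neg n2)) (Nat.cast_nonneg τ)
    rw [← (iso1 hX).symm.nb_eq, th_x1 hX, mul_assoc]
    refine b1.trans (mul_le_mul_of_nonneg_left ?_ (th_nonneg _ _))
    have b5 := mul_le_mul_of_nonneg_left n8 (th_nonneg (x1 X).G⁻¹ 0)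
    have b6 := mul_le_mul_of_nonneg_left (add_le_add b3 b4) (th_nonneg (x1 X).G⁻¹ 0)
    change _ ≤ th (x1 X).G⁻¹ 0 * _ at b2
    push_cast
    linarith

end step

theorem core_zero (n : ℕ) : CORE n 0 := by
  refine ⟨1, fun V ι E _ _ _ _ _ _ S X N Z _ _ h hX hc hs hZ _ _ hm => ?_⟩
  haveI : IsEmpty E := ⟨fun e => Nat.not_lt_zero _ (hs.tr e)⟩
  simp only [pow_one, Nat.cast_one] at hZ hm ⊢
  refine ⟨E, inferInstance, inferInstance, id, 1, 1, X, fun z => z, fun _ _ e => e, fun _ => rfl,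
    fun _ => rfl, one_pos, by simp, Real.one_le_exp (by linarith), ?_, ?_, hs, ?_,
    fun z => by simp [scl_one], fun j => isEmptyElim j, ?_, fun ψ hψ => ?_⟩ <;> rw [dil_one]
  · exact hX
  · exact hc
  · exact mor_id _
  · have := (smo_image (S' := xt S X) Sum.inl_injective (fun _ => rfl) (fun _ _ _ _ => rfl)
      fun _ _ _ => rfl).2 (hm.mono h (cen_base hc) (cls_univ _) (cls_univ _) Subset.rfl
        (le_max_left _ _) (Real.exp_pos _) le_rfl le_rfl)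
    rwa [show univ.image (Sum.inl : ι → ι ⊕ E) = univ by
      ext a; rcases a with i | e; exacts [by simp, isEmptyElim e]] at this
  · rw [Nat.cast_zero, zero_mul, add_zero]
    exact le_mul_of_one_le_left (nb_nonneg (ok_xt h hX) hc hψ) (one_le_th_zero hX.pd.inv)

theorem tail_num {Z : ℝ} {k : ℕ} (hZ : 10 ≤ Z) (hk : (k : ℝ) ≤ Real.exp (Z ^ 2)) :
    26 * Real.exp (-(Z + 4)) + 4 * (Real.exp (-(π * Real.exp (Z ^ 2) ^ 2 / 2)) * √2 ^ k) ≤
      Real.exp (-Z) := by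
  have h1 : √2 ^ k ≤ Real.exp (Real.exp (Z ^ 2)) := pow_le_exp (a := 1) (by positivity)
    ((Real.sqrt_le_iff.2 ⟨by norm_num, by norm_num⟩).trans two_le_exp) zero_le_one hk (by linarith)
  have h2 := Real.add_one_le_exp (Z ^ 2)
  have h3 := mul_le_exp (by positivity) (le_refl (Real.exp (-(π * Real.exp (Z ^ 2) ^ 2 / 2)))) h1
  have h4 : -(π * Real.exp (Z ^ 2) ^ 2 / 2) + Real.exp (Z ^ 2) ≤ -(Z + 4) := by
    have : 3 * Real.exp (Z ^ 2) ^ 2 ≤ π * Real.exp (Z ^ 2) ^ 2 :=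
      mul_le_mul_of_nonneg_right Real.pi_gt_three.le (by positivity)
    nlinarith
  have h5 := h3.trans (Real.exp_le_exp.2 h4)
  have h6 : Real.exp (-(Z + 4)) * Real.exp 4 = Real.exp (-Z) := by rw [← Real.exp_add]; ring_nf
  have h7 : (30 : ℝ) ≤ Real.exp 4 := by
    have := Real.sum_le_exp_of_nonneg (x := 4) (by norm_num) 5
    norm_num [sum_range_succ, Nat.factorial] at this
    linarith
  nlinarith [Real.exp_pos (-(Z + 4))]

theorem cx_num {Z A l t u : ℝ} {v k k' : ℕ} (hZ : 10 ≤ Z) (hA : Z ^ 6 ≤ A) (hv : (v : ℝ) ≤ Z)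
    (hk : (k : ℝ) ≤ Z) (hk' : (k' : ℝ) ≤ Z) (l0 : 0 ≤ l) (hl : l ≤ Real.exp (A + 1)) (t0 : 0 ≤ t)
    (ht : t ≤ Real.exp (3 * A ^ 2)) (hu : u ≤ A) :
    (l ^ v) ^ k * t * ((2 ^ v) ^ k' * Real.exp u) ≤ Real.exp (A ^ 7) := by
  obtain ⟨p2, p3, p4, p5, p6, -⟩ := pow_chain hZ
  have A10 : 10 ≤ A := by linarith
  obtain ⟨a2, a3, a4, a5, a6, a7⟩ := pow_chain A10
  have b0 : Z * Z ≤ A := by linarith
  have b1 : Z * (Z * (A + 1)) ≤ A ^ 3 := by
    have := mul_le_mul_of_nonneg_right b0 (show 0 ≤ A + 1 by linarith)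
    linarith
  exact (mul_le_exp (by positivity) (mul_le_exp t0 (pow_le_exp (by positivity)
    (pow_le_exp l0 hl (by linarith) hv le_rfl) (by positivity) hk b1) ht)
    (mul_le_exp (by positivity) (pow_le_exp (b := A) (by positivity) (pow_le_exp (a := 1)
      zero_le_two two_le_exp zero_le_one hv le_rfl) (by linarith) hk' (by linarith))
      (Real.exp_le_exp.2 hu))).trans (Real.exp_le_exp.2 (by linarith))

theorem cop_num {Z : ℝ} {N c n : ℕ} (hN : (N + 1 : ℝ) ^ n ≤ Z) (hc : (c + 2 : ℝ) ^ n ≤ Z) :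
    (((max N (c + 1) : ℕ) : ℝ) + 1) ^ n ≤ Z ^ 2 := by
  have b1 : ((max N (c + 1) : ℕ) : ℝ) + 1 ≤ (N + 1) * (c + 2) := by
    have : max N (c + 1) + 1 ≤ (N + 1) * (c + 2) := by
      rcases le_total N (c + 1) with e | e
      · rw [max_eq_right e]; nlinarith
      · rw [max_eq_left e]; nlinarith
    exact_mod_cast this
  have b2 := pow_le_pow_left₀ (by positivity) b1 n
  rw [mul_pow] at b2
  rw [sq]
  exact b2.trans (mul_le_mul hN hc (by positivity) (le_trans (by positivity) hN))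

theorem core_succ (n τ : ℕ) (ih : CORE n τ) : CORE n (τ + 1) := by
  obtain ⟨c1, ih⟩ := ih
  obtain ⟨c2, hext⟩ := ext2 n
  refine ⟨7 * (2 * c1 + 6) + c2 + (c1 + 2) ^ n + n + 10,
    fun V ι E _ _ _ _ _ _ S X N Z hV _ h hX hc hs hZ hι hN hm => ?_⟩
  push_cast at hZ
  have c10 : (0 : ℝ) ≤ c1 := Nat.cast_nonneg _
  have c20 : (0 : ℝ) ≤ c2 := Nat.cast_nonneg _
  have n0 : (0 : ℝ) ≤ n := Nat.cast_nonneg _
  have c30 : (0 : ℝ) ≤ (c1 + 2) ^ n := by positivity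
  have Z10 : 10 ≤ Z := by linarith
  have Z1 : 1 ≤ Z := by linarith
  obtain ⟨p2, p3, p4, p5, p6, -⟩ := pow_chain Z10
  obtain ⟨A, hA⟩ : ∃ A, A = Z ^ (2 * c1 + 6) := ⟨_, rfl⟩
  have A6 : Z ^ 6 ≤ A := hA ▸ pow_le_pow_right₀ Z1 (by omega)
  have Ac : (Z ^ 2) ^ c1 ≤ A := by rw [hA, ← pow_mul]; exact pow_le_pow_right₀ Z1 (by omega)
  have A7 : A ^ 7 ≤ Z ^ (7 * (2 * c1 + 6) + c2 + (c1 + 2) ^ n + n + 10) := by
    rw [hA, ← pow_mul]; exact pow_le_pow_right₀ Z1 (by omega)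
  have A10 : 10 ≤ A := by linarith
  obtain ⟨a2, a3, a4, a5, a6, a7⟩ := pow_chain A10
  have hV' : (Fintype.card V : ℝ) ≤ Z := le_trans (Nat.cast_le.2 hV) (by linarith)
  have hSc := cen_base hc
  have ht := topOk_t0 h hX hc
  have ex : ∀ {x y : ℝ}, x ≤ y → Real.exp x ≤ Real.exp y := fun e => Real.exp_le_exp.2 e
  have w1 : 1 ≤ Real.exp (Z ^ 4) := Real.one_le_exp (by positivity)
  have k0 : (Fintype.card {e // X.tr e = 0} : ℝ) ≤ Z :=
    le_trans (Nat.cast_le.2 (Fintype.card_subtype_le _)) hs.card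
  have k1 : (Fintype.card {e // ¬ X.tr e = 0} : ℝ) ≤ Z :=
    le_trans (Nat.cast_le.2 (Fintype.card_subtype_le _)) hs.card
  have t2 : th (bk X.G fun e => X.tr e = 0)⁻¹ 0 ≤ Real.exp Z := le_trans (le_mul_of_one_le_right
    (th_nonneg _ _) (one_le_th_zero (ok_x1 hX).pd.inv)) ((th_x1 hX).ge.trans hs.cx)
  have t3 : th (x1 X).G⁻¹ 0 ≤ Real.exp Z := le_trans (le_mul_of_one_le_left
    (th_nonneg _ _) (one_le_th_zero ht.pd.inv)) ((th_x1 hX).ge.trans hs.cx)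
  obtain ⟨κ, _, _, e1, d1, lam1, G', pn', P1, d1', d2', d3, d4, d5, d6, d7, d8, d9, L, L', J, d10⟩ :=
    hext (S := S) (fn := fun j : {e // X.tr e = 0} => X.fc j) (B0 := univ)
      (Gn := Real.exp (Z ^ 4) ^ 2 • bk X.G fun e => X.tr e = 0) (pn := p0 X) (N := max N (c1 + 1))
      (Z := A) hV h hSc ⟨ht.pd.smul (by positivity), fun i j e => ht.ort i j fun h0 =>
        e (by simp [h0]), ht.ne, ht.fm⟩ (fun j => by rw [inter_univ]; exact hX.ne j)
      (by linarith) (by linarith) (hι.trans (ex (by linarith)))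
      ((cop_num hN (by linarith)).trans (by linarith))
      ((th_sq ht.pd w1).trans ((mul_le_exp (a := Z * Z ^ 4) (th_nonneg _ _) (pow_le_exp
        (by positivity) le_rfl (by positivity) k0 le_rfl) t2).trans (ex (by linarith))))
      (hm.mono h hSc (cls_univ _) (cls_univ _) Subset.rfl (by omega) (Real.exp_pos _) (ex A7)
        (ex (neg_le_neg A7)))
  have l1 : 1 ≤ lam1 := le_trans (by exact_mod_cast d2') d3
  have h1 := ok_top (ok_dil h univ l1) d5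
  have h1c := cen_top (ok_dil h univ l1) (cen_dil hSc univ lam1) d5
  have hP : Fmp _ (t0 S X) P1 := d7.fm
  have k2 : (Fintype.card κ : ℝ) ≤ Z :=
    le_trans (Nat.cast_le.2 (Fintype.card_le_of_injective _ d1')) k0
  have k3 : (Fintype.card (ι ⊕ κ) : ℝ) ≤ Real.exp (Z ^ 2) := by
    rw [Fintype.card_sum]
    push_cast
    have := mul_le_exp (Real.exp_pos Z).le two_le_exp le_rfl
    linarith [Real.add_one_le_exp Z, ex (show 1 + Z ≤ Z ^ 2 by linarith)]
  have Z2 : Z ≤ Z ^ 2 := by linarith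
  obtain ⟨E', _, _, e2, d2, lam2, Y, P2, R⟩ := ih V (ι ⊕ κ) _ _ (pull (x1 X) P1 0) N (Z ^ 2) hV
    inferInstance h1 (ok_pull (ok_x1 hX) hP 0) (cen_pull h1c ((iso1 hX).symm.cen hc) hP)
    ⟨fun e => by have := hs.tr e; have := e.2; change X.tr e - 1 < τ; omega, k1.trans Z2,
      sep_bk hs.sep _, t3.trans (ex Z2)⟩
    (by linarith) k3 (hN.trans Z2) (d9.mono h1 h1c (cls_univ _) (cls_univ _) Subset.rfl (by omega)
      (Real.exp_pos _) (ex Ac) (ex (neg_le_neg Ac)))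
  have k4 : (Fintype.card E' : ℝ) ≤ Z :=
    le_trans (Nat.cast_le.2 (Fintype.card_le_of_injective _ R.inj)) k1
  have l2 : 1 ≤ lam2 := le_trans (by exact_mod_cast R.d0) R.dl
  have l3 : lam2 * 2 ≤ Real.exp (A + 1) :=
    mul_le_exp zero_le_two (R.lam_le.trans (ex Ac)) two_le_exp
  refine ⟨_, inferInstance, inferInstance, _, _, _, _, _, (rg_step h hX hc w1 d1' d2' d3 d5 d7 d8
    (d10.sep fun k hk => ?_) ?_ R (Z := Z) (U := A ^ 7) (ρ := Real.exp (Z ^ 2))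
    (ε := Real.exp (-(Z + 4))) ?_ Z2 ?_ (hs.card.trans (by linarith))
    (cx_num Z10 A6 hV' k2 k4 (by positivity) l3 (th_nonneg _ _) d6 Ac)
    (Real.one_le_exp (by positivity)) (Real.exp_pos _) ?_ ?_ (tail_num Z10 k3)).mono h le_rfl
    le_rfl A7⟩
  · rw [qq_smul_mat]
    exact one_le_mul_of_one_le_of_one_le (one_le_pow₀ w1) (sep_bk hs.sep _ k hk)
  · have := (d9.mono h1 h1c (cls_univ _) (cls_univ _) Subset.rfl le_rfl one_pos
      (Real.one_le_exp (by linarith)) (show _ ≤ (1 : ℝ) from Real.exp_le_one_iff.2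
        (by linarith))).mass h1 h1c (cls_univ _) (by omega) one_ne_zero
    rw [nar_one] at this
    exact this.trans (by norm_num)
  · exact (mul_le_exp (by positivity) le_rfl (pow_le_exp (a := 1) zero_le_two two_le_exp
      zero_le_one hV' le_rfl)).trans (ex (by linarith))
  · exact (mul_le_exp (by positivity) d4 l3).trans (ex (by linarith))
  · have := exp_quarter (x := -(Z + 4)) (Z := 0) (by linarith)
    rw [neg_zero, Real.exp_zero] at this
    exact this.trans (by norm_num)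
  · rw [← Real.exp_add]
    exact pow_le_exp (by positivity) le_rfl (by positivity) hV' (by linarith)

/-- **regularisation of all tiers** -/
theorem core (n τ : ℕ) : CORE n τ := by
  induction τ with
  | zero => exact core_zero n
  | succ τ ih => exact core_succ n τ ih

/-- **biased forms are near integer forms on one regular extension** -/
theorem core2 (n τ : ℕ) : CORE2 n τ := by
  obtain ⟨c1, h1⟩ := core n τ
  obtain ⟨c2, -, h2⟩ := exists_bp n
  refine ⟨2 * c1 + 4 * c2 + (c2 + 2) ^ n + τ + 10,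
    fun V ι E _ _ _ _ _ _ S X N Y hV _ h hX hc hs hY hι hN hm => ?_⟩
  push_cast at hY
  have c10 : (0 : ℝ) ≤ c1 := Nat.cast_nonneg _
  have c20 : (0 : ℝ) ≤ c2 := Nat.cast_nonneg _
  have t0 : (0 : ℝ) ≤ τ := Nat.cast_nonneg _
  have c30 : (0 : ℝ) ≤ (c2 + 2) ^ n := by positivity
  have Y10 : 10 ≤ Y := by linarith
  have p2 := (pow_chain Y10).1
  have ex : ∀ {x y : ℝ}, x ≤ y → Real.exp x ≤ Real.exp y := fun e => Real.exp_le_exp.2 e
  have Y2 : Y ≤ Y ^ 2 := by linarith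
  have Ac : (Y ^ 2) ^ c1 ≤ Y ^ (2 * c1 + 4 * c2 + (c2 + 2) ^ n + τ + 10) := by
    rw [← pow_mul]; exact pow_le_pow_right₀ (by linarith) (by omega)
  obtain ⟨E', _, _, e, d, lam, X', P, R⟩ := h1 V ι E S X (max N (c2 + 1)) (Y ^ 2) hV inferInstance
    h hX hc ⟨hs.tr, hs.card.trans Y2, hs.sep, hs.cx.trans (ex Y2)⟩ (by linarith)
    (hι.trans (ex Y2)) (cop_num hN (by linarith)) (hm.mono h (cen_base hc) (cls_univ _)
      (cls_univ _) Subset.rfl (by omega) (Real.exp_pos _) (ex Ac) (ex (neg_le_neg Ac)))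
  refine ⟨E', inferInstance, inferInstance, e, d, lam, X', P,
    R.mono h (le_max_left _ _) Y2 Ac, fun ψ hψ hb => ?_⟩
  have l1 : 1 ≤ lam := le_trans (by exact_mod_cast R.d0) R.dl
  have hA := ok_xt (ok_dil h univ l1) R.ok
  have hl := fun v => R.mor.lin (hψ v)
  have y1 := Real.add_one_le_exp Y
  have b1 : Real.exp (-(2 * Y + 2)) ≤ nb (xt (dil S univ lam) X') fun z => ψ (P z) := by
    have a1 := (hb.trans (R.tf ψ hψ)).trans (mul_le_mul_of_nonneg_right hs.cx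
      (add_nonneg (nb_nonneg hA R.cen hl) (by positivity)))
    rw [← div_le_iff₀' (Real.exp_pos Y), ← Real.exp_sub] at a1
    have a2 := (mul_le_exp (Real.exp_pos (-Y ^ 2)).le (show (τ : ℝ) ≤ Real.exp Y by linarith)
      le_rfl).trans (exp_quarter (Z := -(-Y - Y)) (by linarith))
    have a3 := exp_quarter (x := -(2 * Y + 2)) (Z := -(-Y - Y)) (by linarith)
    rw [neg_neg] at a2 a3
    linarith [Real.exp_pos (-Y - Y)]
  have b2 : (Real.exp (Y + 1) / Real.exp (-(2 * Y + 2))) ^ c2 ≤ Real.exp (Y ^ 2) :=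
    pow_le_exp (t := Y / 4) (by positivity) (Real.exp_sub _ _).ge (by linarith) (by linarith)
      (by linarith)
  have b3 : 2 * Real.exp Y ≤ Real.exp (Y + 1) := by
    rw [mul_comm]; exact mul_le_exp zero_le_two le_rfl two_le_exp
  obtain ⟨q, q1, q2, q3⟩ := h2 V hV _ _ hA R.cen univ univ _ (Real.exp (Y + 1))
    (Real.exp (-(2 * Y + 2))) _ _ _ (cls_univ _) (fun _ _ => subset_univ _) univ_nonempty
    ⟨on_univ _, fun v _ => hl v⟩ (Real.exp_pos _) (by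
      have := exp_quarter (x := -(2 * Y + 2)) (Z := 0) (by linarith)
      rw [neg_zero, Real.exp_zero] at this
      linarith) (by linarith) (by
      rw [card_univ, Fintype.card_sum]
      push_cast
      have : (Fintype.card E' : ℝ) ≤ Y :=
        le_trans (Nat.cast_le.2 (Fintype.card_le_of_injective _ R.inj)) hs.card
      linarith) b2 (by
      rw [← inv_div, inv_pow, Real.exp_neg]
      exact inv_anti₀ (by positivity) b2) (by omega) R.smo
    ((le_div_iff₀ (vl_pos hA.pd _)).1 b1)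
  exact ⟨q, q1, q2.trans b2, q3.mono b2⟩

end

end Vale.Agent.P057CO
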