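import Vale.Agent.P057SY.Defs
import Vale.Agent.P057MA.ExtF

/-!
Regularisation of all extra coordinates with transfer of biases: statements.
-/

set_option linter.all false

open Matrix Finset
open Vale.Agent.P267.H775 Vale.Agent.P057G Vale.Agent.P057MA Vale.Agent.P057SY

namespace Vale.Agent.P057CO

noncomputable section

variable {V ι E E' : Type} [DecidableEq V] [Fintype V] [Fintype ι] [DecidableEq ι] [Fintype E]
  [DecidableEq E] [Fintype E'] [DecidableEq E']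

/-- the normalised bias -/
def nb (S : MS V ι) (θ : (ι → ℝ) → ℝ) : ℝ := S.bias univ θ / vl S.G univ

/-- a smooth system over the dilated base that maps to the system with the extra coordinates and
inherits its biases -/
structure Rg (S : MS V ι) (X : Xt V ι E) (e : E' → E) (d : ℕ) (lam : ℝ) (X' : Xt V ι E')
    (P : (ι ⊕ E' → ℝ) → ι ⊕ E → ℝ) (τ N : ℕ) (Z U : ℝ) : Prop where
  inj : Function.Injective e
  fc : ∀ j, X'.fc j = X.fc (e j)
  tr : ∀ j, X'.tr j = X.tr (e j)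
  d0 : 0 < d
  dl : (d : ℝ) ≤ lam
  lam_le : lam ≤ Real.exp U
  ok : X'.Ok (dil S univ lam)
  cen : (xt (dil S univ lam) X').Cen
  sz : X'.Sz τ U
  mor : Mor (xt (dil S univ lam) X') (xt S X) P
  inl : ∀ z, P z ∘ Sum.inl = scl S univ d (z ∘ Sum.inl)
  tier : ∀ j z z', z ∘ Sum.inl = z' ∘ Sum.inl →
    (∀ j', X'.tr j' ≤ X.tr j → z (Sum.inr j') = z' (Sum.inr j')) →
    P z (Sum.inr j) = P z' (Sum.inr j)
  smo : Smo (xt (dil S univ lam) X') univ N (Real.exp Z) (Real.exp (-Z))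
  tf : ∀ ψ, (∀ v, Lin ((xt S X).st v) ψ) → nb (xt S X) ψ ≤
    th X.G⁻¹ 0 * (nb (xt (dil S univ lam) X') (fun z => ψ (P z)) + τ * Real.exp (-Z))

/-- regularisation of the extra coordinates, tier by tier -/
def CORE (n τ : ℕ) : Prop :=
  ∃ c : ℕ, ∀ (V ι E : Type) [DecidableEq V] [Fintype V] [Fintype ι] [DecidableEq ι] [Fintype E]
    [DecidableEq E] (S : MS V ι) (X : Xt V ι E) (N : ℕ) (Z : ℝ), Fintype.card V ≤ n →
    Nonempty V → S.Ok → X.Ok S → (xt S X).Cen → X.Sz τ Z → (c : ℝ) ≤ Z →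
    (Fintype.card ι : ℝ) ≤ Real.exp Z → ((N + 1 : ℝ)) ^ n ≤ Z →
    Smo S univ (max N c) (Real.exp (Z ^ c)) (Real.exp (-Z ^ c)) →
    ∃ (E' : Type) (_ : Fintype E') (_ : DecidableEq E') (e : E' → E) (d : ℕ) (lam : ℝ)
      (X' : Xt V ι E') (P : (ι ⊕ E' → ℝ) → ι ⊕ E → ℝ), Rg S X e d lam X' P τ N Z (Z ^ c)

/-- the same with the conclusion for biased forms -/
def CORE2 (n τ : ℕ) : Prop :=
  ∃ c : ℕ, ∀ (V ι E : Type) [DecidableEq V] [Fintype V] [Fintype ι] [DecidableEq ι] [Fintype E]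
    [DecidableEq E] (S : MS V ι) (X : Xt V ι E) (N : ℕ) (Y : ℝ), Fintype.card V ≤ n →
    Nonempty V → S.Ok → X.Ok S → (xt S X).Cen → X.Sz τ Y → (c : ℝ) ≤ Y →
    (Fintype.card ι : ℝ) ≤ Real.exp Y → ((N + 1 : ℝ)) ^ n ≤ Y →
    Smo S univ (max N c) (Real.exp (Y ^ c)) (Real.exp (-Y ^ c)) →
    ∃ (E' : Type) (_ : Fintype E') (_ : DecidableEq E') (e : E' → E) (d : ℕ) (lam : ℝ)
      (X' : Xt V ι E') (P : (ι ⊕ E' → ℝ) → ι ⊕ E → ℝ), Rg S X e d lam X' P τ N Y (Y ^ c) ∧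
      ∀ ψ, (∀ v, Lin ((xt S X).st v) ψ) → Real.exp (-Y) ≤ nb (xt S X) ψ →
        ∃ q : ℕ, 0 < q ∧ (q : ℝ) ≤ Real.exp (Y ^ 2) ∧
          Near (xt (dil S univ lam) X') univ univ (fun z => q * ψ (P z)) (Real.exp (Y ^ 2))

end

end Vale.Agent.P057CO
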