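import Vale.Agent.P057CO.Tf
import Vale.Agent.P057ST.Shr

/-!
Relabelling, splitting off the lowest tier, joining tiers.
-/

set_option linter.all false

open Matrix Finset
open scoped Real
open Vale.Agent.P267.H775 Vale.Agent.P057G Vale.Agent.P057MA Vale.Agent.P057SY Vale.Agent.P057PC
open Vale.Agent.P057T1 (gsc qq_gsc)

namespace Vale.Agent.P057CO

noncomputable section

variable {V ι ι' κ E : Type} [DecidableEq V] [Fintype V] [Fintype ι] [DecidableEq ι] [Fintype ι']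
  [DecidableEq ι'] [Fintype κ] [DecidableEq κ] [Fintype E] [DecidableEq E] {S : MS V ι}
  {S' : MS V ι'}

/-- the same system with other names of the labels -/
structure Iso (S : MS V ι) (S' : MS V ι') (e : ι ≃ ι') : Prop where
  fc : ∀ i, S'.fc (e i) = S.fc i
  G : ∀ i j, S'.G (e i) (e j) = S.G i j
  p : ∀ z i, S'.p z (e i) = S.p (z ∘ e) i

namespace Iso

variable {e : ι ≃ ι'}

theorem symm (h : Iso S S' e) : Iso S' S e.symm :=
  ⟨fun i => by rw [← h.fc, e.apply_symm_apply], fun i j => by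
    rw [← h.G, e.apply_symm_apply, e.apply_symm_apply], fun z i => by
    have := h.p (z ∘ e.symm) (e.symm i)
    rwa [e.apply_symm_apply, Function.comp_assoc, e.symm_comp_self, Function.comp_id,
      eq_comm] at this⟩

theorem fmp (h : ∀ i, S'.fc (e i) = S.fc i) : Fmp S' S fun z => z ∘ e := fun i => by
  have := (mor_id S').fm (e i)
  rwa [h] at this

theorem mor (h : Iso S S' e) : Mor S' S fun z => z ∘ e :=
  ⟨fmp h.fc, fun i => IntV.coord (e i), fun z hz => by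
    rwa [← ln2_image e.injective (fun _ _ _ _ => h.G _ _) fun _ _ _ => h.p _ _, image_univ_equiv]⟩

theorem smo (h : Iso S S' e) {N : ℕ} {W η : ℝ} (hs : Smo S univ N W η) : Smo S' univ N W η := by
  rwa [← smo_image e.injective h.fc (fun _ _ _ _ => h.G _ _) fun _ _ _ => h.p _ _,
    image_univ_equiv] at hs

theorem nb_eq (h : Iso S S' e) (θ : (ι → ℝ) → ℝ) : nb S' (fun z => θ (z ∘ e)) = nb S θ := by
  rw [nb, nb, ← bias_image e.injective (fun _ _ _ _ => h.G _ _) fun _ _ _ => h.p _ _,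
    ← vl_image e.injective fun _ _ _ _ => h.G _ _, image_univ_equiv]

theorem cen (h : Iso S S' e) (hc : S.Cen) : S'.Cen := by
  refine ⟨fun i => ?_, fun v i hv y => ?_⟩ <;> obtain ⟨i, rfl⟩ := e.surjective i
  · rw [h.fc]; exact hc.ne i
  · rw [h.p, show mix (S'.st v) 0 y ∘ e = _ from (fmp h.fc).kill v y]
    exact hc.zero v i (h.fc i ▸ hv) _

end Iso

theorem Fmp.scl {P : (ι' → ℝ) → ι → ℝ} (h : Fmp S' S P) (t : ℝ) (z : ι' → ℝ) :
    P (scl S' univ t z) = scl S univ t (P z) := funext fun i => (h i).scl univ t z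

theorem ln2_small (h : S.Ok) (hc : S.Cen) {t : ℝ} (t0 : 0 ≤ t) (t1 : t ≤ 1) (z : ι → ℝ) :
    ln2 S univ (scl S univ t z) ≤ t ^ 2 * ln2 S univ z :=
  ln2_scl h hc univ (fun i _ => pow_le_pow_left₀ (by positivity) (by
    rw [inter_univ]
    simpa using pow_le_pow_of_le_one t0 t1 (card_pos.2 (hc.ne i))) 2) z

theorem mor_large {P : (ι' → ℝ) → ι → ℝ} (hP : Mor S' S P) (h' : S'.Ok) (hc' : S'.Cen) (h : S.Ok)
    (hc : S.Cen) {R : ℝ} (hR : 1 ≤ R) {y : ι' → ℝ} (hy : ln2 S' univ y ≤ R ^ 2) :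
    ln2 S univ (P y) ≤ (R ^ Fintype.card V) ^ 2 := by
  have R0 : 0 < R := by linarith
  have h1 := ln2_small h' hc' (t := R⁻¹) (by positivity) (inv_le_one_of_one_le₀ hR) y
  have h2 := hP.ball _ (h1.trans (by rw [inv_pow, inv_mul_le_iff₀ (by positivity)]; linarith))
  have h3 := ln2_scl (q := univ) h hc univ (t := R) (s := R ^ Fintype.card V) (fun i _ =>
    pow_le_pow_left₀ (by positivity) (pow_le_pow_right₀ hR (card_le_univ _)) 2)
    (P (scl S' univ R⁻¹ y))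
  rw [← Fmp.scl hP.fm, scl_scl, mul_inv_cancel₀ R0.ne', scl_one] at h3
  exact h3.trans (mul_le_of_le_one_right (by positivity) h2)

theorem mor_two {P : (ι' → ℝ) → ι → ℝ} (hP : Fmp S' S P) (hi : ∀ i, IntV fun z => P z i)
    (h' : S'.Ok) (hc' : S'.Cen) (h : S.Ok) (hc : S.Cen)
    (hb : ∀ z, ln2 S' univ z ≤ 1 → ln2 S univ (P z) ≤ 4) : Mor (dil S' univ 2) S P := by
  refine ⟨fun i => ⟨(hP i).on, (hP i).lin⟩, hi, fun z hz => ?_⟩
  rw [ln2_dil h' hc'] at hz
  have h1 := ln2_small h hc (t := 2⁻¹) (by norm_num) (by norm_num) (P (scl S' univ 2 z))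
  rw [← hP.scl, scl_scl, inv_mul_cancel₀ two_ne_zero, scl_one] at h1
  linarith [hb _ hz]

theorem le_gsc {G : Matrix κ κ ℝ} (hG : G.PosDef) {s : κ → ℝ} (hs : ∀ i j, G i j ≠ 0 → s i = s j)
    (h1 : ∀ i, 1 ≤ s i) (x : κ → ℝ) : qq G x ≤ qq (gsc G s) x := by
  rw [qq_gsc]
  have := qq_scale_le hG.posSemidef (a := 1) (b := s) (fun _ _ _ => rfl) hs
    (fun i => by simpa using (h1 i).trans (le_abs_self _)) x
  rwa [one_mul] at this

theorem pd_gsc {G : Matrix κ κ ℝ} (hG : G.PosDef) {s : κ → ℝ} (hs : ∀ i j, G i j ≠ 0 → s i = s j)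
    (h1 : ∀ i, 1 ≤ s i) : (gsc G s).PosDef := by
  refine posDef_of_le hG ?_ (le_gsc hG hs h1)
  ext i j
  have := hG.1.apply i j
  simp only [star_trivial] at this
  simp only [gsc, conjTranspose_apply, of_apply, star_trivial, this]; ring

theorem th_sq {G : Matrix κ κ ℝ} (hG : G.PosDef) {W : ℝ} (hW : 1 ≤ W) :
    th (W ^ 2 • G)⁻¹ 0 ≤ W ^ Fintype.card κ * th G⁻¹ 0 := by
  have h0 : 0 < W := by linarith
  have h1 := th_smul_le (c := (W ^ 2)⁻¹) (by positivity)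
    (inv_le_one_of_one_le₀ (one_le_pow₀ hW)) hG.inv 0
  rwa [← inv_smul_mat (by positivity) hG, Real.sqrt_inv, inv_inv, Real.sqrt_sq h0.le] at h1

theorem th_gsc {G : Matrix κ κ ℝ} (hG : G.PosDef) {s : κ → ℝ} (hs : ∀ i j, G i j ≠ 0 → s i = s j)
    (h1 : ∀ i, 1 ≤ s i) {W : ℝ} (hW : 1 ≤ W) (h2 : ∀ i, s i ≤ W) :
    th (gsc G s)⁻¹ 0 ≤ W ^ Fintype.card κ * th G⁻¹ 0 := by
  refine (th_inv_mono (pd_gsc hG hs h1) (hG.smul (by positivity)) (fun x => ?_) 0).trans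
    (th_sq hG hW)
  rw [qq_gsc, qq_smul_mat, ← qq_smul]
  exact qq_scale_le hG.posSemidef (b := fun _ => W) hs (fun _ _ _ => rfl)
    (fun i => pow_le_pow_left₀ (by linarith [h1 i]) (h2 i) 2) x

theorem nb_dil (h : S.Ok) (hc : S.Cen) {t : ℝ} (ht : 1 ≤ t) {θ : (ι → ℝ) → ℝ}
    (hθ : ∀ v, Lin (S.st v) θ) : nb S θ ≤ nb (dil S univ t) θ :=
  bias_narrow h hc (ok_dil h univ ht) (le_gsc h.pd (fun i j e => by rw [(h.orth i j e).1])
    fun _ => one_le_pow₀ ht) univ hθ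

variable {X : Xt V ι E}

theorem ln2_xt (z : ι ⊕ E → ℝ) : ln2 (xt S X) univ z =
    ln2 S univ (z ∘ Sum.inl) + qq X.G (z ∘ Sum.inr - X.g z) := by
  unfold ln2
  rw [show msk univ (z - (xt S X).p z) = _ from funext fun i => msk_pos _ (mem_univ i),
    show msk univ (z ∘ Sum.inl - S.p (z ∘ Sum.inl)) = _ from funext fun i => msk_pos _ (mem_univ i)]
  exact qq_blocks _ _ _

theorem sep_bk {G : Matrix E E ℝ} (h : ∀ k : E → ℤ, k ≠ 0 → 1 ≤ qq G (toR k)) (Q : E → Prop)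
    [DecidablePred Q] (k : {e // Q e} → ℤ) (hk : k ≠ 0) : 1 ≤ qq (bk G Q) (toR k) := by
  have := h (fun e => if h : Q e then k ⟨e, h⟩ else 0) fun e => hk (funext fun j => by
    simpa [j.2] using congrFun e j)
  rw [P057ST.qq_bk]
  refine this.trans_eq (congrArg _ (funext fun e => ?_))
  rw [toR_apply]
  split_ifs <;> simp

/-! ### the lowest tier -/

/-- the labels sorted by tier -/
def i1 (X : Xt V ι E) : (ι ⊕ {e // X.tr e = 0}) ⊕ {e // ¬ X.tr e = 0} ≃ ι ⊕ E :=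
  (Equiv.sumAssoc _ _ _).trans ((Equiv.refl ι).sumCongr (Equiv.sumCompl _))

/-- the centres of the lowest tier -/
def p0 (X : Xt V ι E) (y : ι → ℝ) (j : {e // X.tr e = 0}) : ℝ := X.g (Sum.elim y 0) j

/-- the base with the lowest tier -/
def t0 (S : MS V ι) (X : Xt V ι E) : MS V (ι ⊕ {e // X.tr e = 0}) :=
  top S (fun j => X.fc j) (bk X.G fun e => X.tr e = 0) (p0 X)

/-- the upper tiers -/
def x1 (X : Xt V ι E) : Xt V (ι ⊕ {e // X.tr e = 0}) {e // ¬ X.tr e = 0} :=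
  ⟨fun e => X.fc e, fun e => X.tr e - 1, bk X.G fun e => ¬ X.tr e = 0,
    fun x e => X.g (x ∘ (i1 X).symm) e⟩

theorem fmp_elim : Fmp S (xt S X) fun y => Sum.elim y 0 := fun a => by
  rcases a with i | e
  exacts [(mor_id S).fm i, Fm.zero S _ _]

theorem topOk_t0 (h : S.Ok) (hX : X.Ok S) (hc : (xt S X).Cen) :
    TopOk S (fun j : {e // X.tr e = 0} => X.fc j) (bk X.G fun e => X.tr e = 0) (p0 X) :=
  ⟨posDef_bk hX.pd _, fun i j e => (hX.ort i j e).1, fun j => hX.ne j,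
    fun j => fmp_elim.fm (fm_p' (ok_xt h hX) hc (Sum.inr j.1))⟩

theorem ort0 (hX : X.Ok S) : P057PC.Ort X.G fun e => X.tr e = 0 := fun i j hi hj =>
  by_contra fun e => hj ((hX.ort i j e).2.symm.trans hi)

theorem iso1 (hX : X.Ok S) : Iso (xt (t0 S X) (x1 X)) (xt S X) (i1 X) := by
  refine ⟨fun a => ?_, fun a b => ?_, fun z a => ?_⟩
  · rcases a with (i | j) | e <;> rfl
  · rcases a with (i | j) | e <;> rcases b with (i' | j') | e' <;> try rfl
    · exact ort0 hX _ _ j.2 e'.2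
    · exact by_contra fun h => e.2 ((hX.ort _ _ h).2.trans j'.2)
  · rcases a with (i | j) | e
    · rfl
    · exact hX.loc j _ _ (fun _ _ => rfl) fun e' _ h => absurd (h.trans_eq j.2) (Nat.not_lt_zero _)
    · change X.g z e = X.g ((z ∘ i1 X) ∘ (i1 X).symm) e
      rw [Function.comp_assoc, (i1 X).self_comp_symm, Function.comp_id]

theorem i1_inl (i : ι) : (i1 X).symm (Sum.inl i) = Sum.inl (Sum.inl i) := rfl

theorem i1_pos {e : E} (h : X.tr e = 0) : (i1 X).symm (Sum.inr e) = Sum.inl (Sum.inr ⟨e, h⟩) :=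
  (i1 X).symm_apply_apply (Sum.inl (Sum.inr ⟨e, h⟩))

theorem i1_neg {e : E} (h : ¬ X.tr e = 0) : (i1 X).symm (Sum.inr e) = Sum.inr ⟨e, h⟩ :=
  (i1 X).symm_apply_apply (Sum.inr ⟨e, h⟩)

theorem ok_x1 (hX : X.Ok S) : (x1 X).Ok (t0 S X) := by
  refine ⟨fun e => hX.ne e, posDef_bk hX.pd _, fun e e' h => ⟨(hX.ort e e' h).1,
    congrArg (· - 1) (hX.ort e e' h).2⟩, fun e x x' h1 h2 => hX.loc e _ _
      (fun i hi => h1 (Sum.inl i) hi) fun e' a b => ?_,
    fun v e => (Iso.fmp (iso1 hX).symm.fc).aff0 (hX.aff v e)⟩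
  by_cases h : X.tr e' = 0
  · simp only [Function.comp, i1_pos h]; exact h1 (Sum.inr ⟨e', h⟩) a
  · simp only [Function.comp, i1_neg h]
    exact h2 ⟨e', h⟩ a (by change X.tr e' - 1 < X.tr e - 1; omega)

theorem th_x1 (hX : X.Ok S) :
    th X.G⁻¹ 0 = th (bk X.G fun e => X.tr e = 0)⁻¹ 0 * th (x1 X).G⁻¹ 0 := by
  rw [← ms_zero hX.pd, ms_zero_split hX.pd (ort0 hX), ms_zero (posDef_bk hX.pd _),
    ms_zero (posDef_bk hX.pd _)]
  rfl

/-! ### joining a new lowest tier with the upper tiers -/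

/-- the new lowest tier, dilated by `a * 2`, and the upper tiers, dilated by `2` -/
def jo (fn : κ → Finset V) (G : Matrix κ κ ℝ) (pn : (ι → ℝ) → κ → ℝ) (a : ℝ)
    (X : Xt V (ι ⊕ κ) E) : Xt V ι (κ ⊕ E) :=
  ⟨Sum.elim fn X.fc, Sum.elim (fun _ => 0) fun e => X.tr e + 1,
    fromBlocks (gsc G fun j => (a * 2) ^ (fn j ∩ univ).card) 0 0
      (gsc X.G fun e => 2 ^ (X.fc e ∩ univ).card),
    fun x => Sum.elim (pn (x ∘ Sum.inl)) (X.g (x ∘ Equiv.sumAssoc ι κ E))⟩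

variable {fn : κ → Finset V} {G : Matrix κ κ ℝ} {pn : (ι → ℝ) → κ → ℝ} {a b : ℝ}
  {Y : Xt V (ι ⊕ κ) E}

theorem iso2 : Iso (dil (xt (dil (top (dil S univ b) fn G pn) univ a) Y) univ 2)
    (xt (dil S univ (b * (a * 2))) (jo fn G pn a Y)) (Equiv.sumAssoc ι κ E) := by
  refine ⟨fun c => ?_, fun c c' => ?_, fun z c => ?_⟩
  · rcases c with (i | j) | e <;> rfl
  · rcases c with (i | j) | e <;> rcases c' with (i' | j') | e' <;>
      simp [dil, MS.gram, xt, top, jo, gsc, mul_pow] <;> ring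
  · rcases c with (i | j) | e <;> rfl

theorem ok_jo (h : S.Ok) (hb : 1 ≤ b) (ha : 1 ≤ a) (ht : TopOk (dil S univ b) fn G pn)
    (hY : Y.Ok (dil (top (dil S univ b) fn G pn) univ a)) :
    (jo fn G pn a Y).Ok (dil S univ (b * (a * 2))) := by
  have h1 := ok_dil (ok_xt (ok_dil (ok_top (ok_dil h univ hb) ht) univ ha) hY) univ one_le_two
  refine ⟨fun c => ?_, posDef_blocks (pd_gsc ht.pd (fun i j e => by rw [ht.ort i j e])
    fun _ => one_le_pow₀ (by linarith)) (pd_gsc hY.pd (fun i j e => by rw [(hY.ort i j e).1])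
    fun _ => one_le_pow₀ one_le_two), fun c c' hc => ?_, fun c x x' k1 k2 => ?_, fun v c => ?_⟩
  · rcases c with j | e
    exacts [ht.ne j, hY.ne e]
  · rcases c with j | e <;> rcases c' with j' | e'
    · exact ⟨ht.ort j j' fun e => hc (by simp [jo, gsc, e]), rfl⟩
    · exact absurd rfl hc
    · exact absurd rfl hc
    · have := hY.ort e e' fun e => hc (by simp [jo, gsc, e])
      exact ⟨this.1, congrArg (· + 1) this.2⟩
  · rcases c with j | e
    · exact (ht.fm j).on _ _ fun i hi => k1 i (mem_fce.1 hi)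
    · refine hY.loc e _ _ (fun c hc => ?_) fun e' p q => k2 (Sum.inr e') p (Nat.succ_lt_succ q)
      rcases c with i | j
      exacts [k1 i hc, k2 (Sum.inl j) hc (Nat.succ_pos _)]
  · rcases c with j | e
    · exact (Iso.fmp iso2.fc).aff0 (aff_p h1 v (Sum.inl (Sum.inr j)))
    · exact (Iso.fmp iso2.fc).aff0 (aff_p h1 v (Sum.inr e))

end

end Vale.Agent.P057CO
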