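import Vale.Agent.P057CO.Defs

/-!
Monotonicity of biases under insertion, narrowing, shifts and cosets.
-/

set_option linter.all false

open Matrix Finset
open scoped Real
open Vale.Agent.P267.H775 Vale.Agent.P057G Vale.Agent.P057MA Vale.Agent.P057SY

namespace Vale.Agent.P057CO

noncomputable section

variable {V ι ι' : Type*} [DecidableEq ι] [Fintype ι] [DecidableEq ι'] [Fintype ι'] [DecidableEq V]
  {S : MS V ι} {S' : MS V ι'}

theorem bias_ins (h : S.Ok) (hc : S.Cen) {q D : Finset ι} (hD : Sat S.G D)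
    (hd : ∀ i ∈ q, ∀ j ∈ q ∩ D, ¬ S.Dep i j) {v : V} (hv : ∀ i ∈ q ∩ D, v ∈ S.fc i)
    {θ : (ι → ℝ) → ℝ} (hθ : Lin (S.st v) θ) (ho : On (univ \ D) θ) :
    S.bias (q \ D) θ / vl S.G (q \ D) ≤ S.bias q θ / vl S.G q := by
  have h1 := Complex.hasSum_re (h.hasSum_top hD hd (f := fun z => ee (θ (toR z))) (C := 1)
    (fun z => (norm_ee _).le) fun x y => congrArg ee (ho _ _ fun i hi => by
      rw [toR_apply, toR_apply, put_neg _ _ fun e => (Finset.mem_sdiff.1 hi).2 (mem_inter.1 e).2]))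
  simp only [Complex.re_ofReal_mul, ← ee_add] at h1
  rw [h.re_bias] at h1
  have h2 : ∀ k : ↥(q ∩ D) → ℤ, (∑' y, (S.wt (q \ D) y : ℂ) *
      ee (θ (toR y) + ∑ i : ↥(q ∩ D), k i * S.p (toR y) i)).re =
      S.bias (q \ D) fun z => θ z + ∑ i : ↥(q ∩ D), k i * S.p z i := fun k =>
    h.re_bias (q \ D) fun z => θ z + ∑ i : ↥(q ∩ D), k i * S.p z i
  simp only [h2] at h1
  have h3 := le_hasSum h1 0 fun k _ => mul_nonneg (mul_pos (vl_pos h.pd _) (gs_pos _ _)).le
    (h.bias_nonneg hc (q \ D) v (by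
      simpa only [one_mul] using lin_comb hθ (Lin.sum univ (fun i : ↥(q ∩ D) => (k i : ℝ))
        fun i _ => h.lin hc (hv i i.2)) 1 1))
  simp only [toR_zero, gs_zero, mul_one, Pi.zero_apply, Int.cast_zero, zero_mul, sum_const_zero,
    add_zero] at h3
  rw [div_le_div_iff₀ (vl_pos h.pd _) (vl_pos h.pd _), vl_split h.pd hD q]
  nlinarith [mul_le_mul_of_nonneg_right h3 (vl_pos h.pd (q \ D)).le]

/-- inserting labels does not decrease the normalised bias -/
theorem bias_mono (h : S.Ok) (hc : S.Cen) {q' : Finset ι} (hq' : Sat S.G q') {θ : (ι → ℝ) → ℝ}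
    (hθ : ∀ v, Lin (S.st v) θ) (ho : On q' θ) :
    ∀ (q : Finset ι), Sat S.G q → q' ⊆ q → (∀ i ∈ q', ∀ j ∈ q, S.Dep i j → j ∈ q') →
      S.bias q' θ / vl S.G q' ≤ S.bias q θ / vl S.G q := by
  intro q
  induction q using Finset.strongInduction with
  | H q ih =>
    intro hq hsub hcl
    rcases (q \ q').eq_empty_or_nonempty with he | hne
    · rw [Subset.antisymm hsub (sdiff_eq_empty_iff_subset.1 he)]
    obtain ⟨j0, hj0, hmax⟩ := exists_max_image (q \ q') S.lv hne
    set D := (q \ q') ∩ univ.filter fun j => S.fc j = S.fc j0 ∧ S.lv j = S.lv j0 with hDdef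
    have hmem : ∀ j, j ∈ D ↔ (j ∈ q ∧ j ∉ q') ∧ S.fc j = S.fc j0 ∧ S.lv j = S.lv j0 := by
      intro j; simp [hDdef]
    have hD : Sat S.G D := (hq.sdiff h.pd.1 hq').inter (h.sat fun i j e1 e2 hi => by
      simp only [mem_filter, mem_univ, true_and] at hi ⊢
      exact ⟨e1 ▸ hi.1, e2 ▸ hi.2⟩)
    obtain ⟨v, hv⟩ := hc.ne j0
    have hj0D : j0 ∈ D := (hmem j0).2 ⟨Finset.mem_sdiff.1 hj0, rfl, rfl⟩
    refine le_trans (ih (q \ D) ?_ (hq.sdiff h.pd.1 hD) ?_ ?_) (bias_ins h hc hD ?_ (v := v) ?_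
      (hθ v) (ho.mono fun i hi => Finset.mem_sdiff.2 ⟨mem_univ _, fun e => ((hmem i).1 e).1.2 hi⟩))
    · exact sdiff_ssubset (fun j hj => ((hmem j).1 hj).1.1) ⟨j0, hj0D⟩
    · exact fun i hi => Finset.mem_sdiff.2 ⟨hsub hi, fun hiD => ((hmem i).1 hiD).1.2 hi⟩
    · exact fun i hi j hj => hcl i hi j (Finset.mem_sdiff.1 hj).1
    · intro i hi j hj hdep
      have hj' := (hmem j).1 (mem_inter.1 hj).2
      by_cases hi' : i ∈ q'
      · exact hj'.1.2 (hcl i hi' j hj'.1.1 hdep)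
      · have := hmax i (Finset.mem_sdiff.2 ⟨hi, hi'⟩)
        have := hdep.2
        omega
    · intro i hi
      rw [((hmem i).1 (mem_inter.1 hi).2).2.1]; exact hv

theorem bias_narrow_st (h : S.Ok) (hc : S.Cen) {G : Matrix ι ι ℝ} (h' : (S.gram G).Ok)
    (q : Finset ι) (v : V) (he : blk G (q \ S.st v) = blk S.G (q \ S.st v))
    (hle : ∀ x, qq (blk S.G (q ∩ S.st v)) x ≤ qq (blk G (q ∩ S.st v)) x) {θ : (ι → ℝ) → ℝ}
    (hθ : Lin (S.st v) θ) : S.bias q θ / vl S.G q ≤ (S.gram G).bias q θ / vl G q := by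
  have h1 := (h.hasSum_bias_re hc q v hθ).div_const (vl S.G q)
  have h2 := (h'.hasSum_bias_re (hc.gram G) q v hθ).div_const (vl G q)
  have h3 : vl G (q \ S.st v) = vl S.G (q \ S.st v) := congrArg vol he
  have h4 : vl G q = vl G (q ∩ S.st v) * vl G (q \ S.st v) := h'.vl_st q v
  refine hasSum_le (fun y => ?_) h1 h2
  rw [show (S.gram G).wt (q \ (S.gram G).st v) y = S.wt (q \ S.st v) y from MS.wt_gram he y,
    h4, h3, h.vl_st q v]
  have p1 := vl_pos h.pd (q ∩ S.st v)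
  have p2 : 0 < vl G (q ∩ S.st v) := vl_pos h'.pd _
  have p3 := vl_pos h.pd (q \ S.st v)
  change _ ≤ _ * (vl G (q ∩ S.st v) * _) / _
  rw [mul_left_comm, mul_left_comm _ (vl G _), mul_div_mul_left _ _ p1.ne',
    mul_div_mul_left _ _ p2.ne']
  refine div_le_div_of_nonneg_right (mul_le_mul_of_nonneg_left (th_inv_mono (h.fg_pos q v _)
    (h'.fg_pos q v _) (fun x => ?_) _) (MS.wt_nonneg _ _)) p3.le
  exact (qq_conj _ _ x).trans_le ((hle _).trans_eq (qq_conj _ _ x).symm)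

/-- narrowing does not decrease the normalised bias -/
theorem bias_narrow (h : S.Ok) (hc : S.Cen) {H : Matrix ι ι ℝ} (h' : (S.gram H).Ok)
    (hle : ∀ x, qq S.G x ≤ qq H x) (q : Finset ι) {θ : (ι → ℝ) → ℝ}
    (hθ : ∀ v, Lin (S.st v) θ) : S.bias q θ / vl S.G q ≤ (S.gram H).bias q θ / vl H q := by
  have hH : H.PosDef := h'.pd
  set A : Finset V → Finset ι := fun T => univ.filter fun i => ∃ v ∈ T, v ∈ S.fc i with hA
  have hmem : ∀ T i, i ∈ A T ↔ ∃ v ∈ T, v ∈ S.fc i := fun T i => by simp [hA]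
  have s1 : ∀ T, Sat S.G (A T) := fun T => h.sat fun i j e _ hi =>
    (hmem T j).2 (e ▸ (hmem T i).1 hi)
  have s2 : ∀ T, Sat H (A T) := fun T => h'.sat fun i j e _ hi =>
    (hmem T j).2 ((show S.fc i = S.fc j from e) ▸ (hmem T i).1 hi)
  have lo : ∀ T x, qq S.G x ≤ qq (hyb (A T) S.G H) x := fun T x => by
    rw [qq_hyb h.pd.1 hH.1 (s1 T) (s2 T), qq_split h.pd.1 (s1 T) x]
    linarith [hle (msk (A T) x)]
  have hi : ∀ T x, qq (hyb (A T) S.G H) x ≤ qq H x := fun T x => by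
    rw [qq_hyb h.pd.1 hH.1 (s1 T) (s2 T), qq_split hH.1 (s2 T) x]
    linarith [hle (msk (univ \ A T) x)]
  have ok : ∀ T, (S.gram (hyb (A T) S.G H)).Ok := fun T =>
    h.gram (posDef_of_le h.pd (herm_hyb h.pd.1 hH.1 (s1 T) (s2 T)) (lo T)) fun i j hij => by
      by_cases hi : i ∈ A T
      · exact h'.orth i j fun e => hij ((if_pos hi).trans e)
      · exact h.orth i j fun e => hij ((if_neg hi).trans e)
  have key : ∀ T, S.bias q θ / vl S.G q ≤
      (S.gram (hyb (A T) S.G H)).bias q θ / vl (hyb (A T) S.G H) q := by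
    intro T
    induction T using Finset.induction_on with
    | empty =>
      have : hyb (A ∅) S.G H = S.G := by
        ext i j; exact if_neg (by simp [hmem])
      rw [this]; exact le_rfl
    | insert v T _ ih =>
      refine ih.trans (bias_narrow_st (ok T) (hc.gram _) (G := hyb (A (insert v T)) S.G H)
        (ok (insert v T)) q v ?_ (fun x => ?_) (hθ v))
      · ext i j
        have hv : v ∉ S.fc i := fun hv => (Finset.mem_sdiff.1 i.2).2 (S.mem_st.2 hv)
        have : (i : ι) ∈ A (insert v T) ↔ (i : ι) ∈ A T := by simp [hmem, hv]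
        change (if _ then _ else _) = if _ then _ else _
        simp only [this]
      · rw [blk_hyb_in (A := A (insert v T)) (r := q ∩ (S.gram (hyb (A T) S.G H)).st v)
          fun i hi => (hmem _ i).2 ⟨v, mem_insert_self _ _, S.mem_st.1 (mem_inter.1 hi).2⟩]
        exact qq_blk_le (hi T) _ x
  have := key (univ.biUnion S.fc)
  have e : hyb (A (univ.biUnion S.fc)) S.G H = H := by
    ext i j
    obtain ⟨v, hv⟩ := hc.ne i
    exact if_pos ((hmem _ i).2 ⟨v, mem_biUnion.2 ⟨i, mem_univ _, hv⟩, hv⟩)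
  rwa [e] at this

/-! ### shifts -/

/-- multilinear maps that respect the faces -/
def Fmp (S' : MS V ι') (S : MS V ι) (P : (ι' → ℝ) → ι → ℝ) : Prop :=
  ∀ i, Fm S' (fce S' (S.fc i)) (S.fc i) fun z => P z i

variable {P : (ι' → ℝ) → ι → ℝ}

theorem Fmp.indep (h : Fmp S' S P) {v : V} {i : ι} (hi : i ∉ S.st v) (x y : ι' → ℝ) :
    P (mix (S'.st v) x y) i = P y i :=
  (h i).on.indep (fun _ hj h2 => hi (S.mem_st.2 (mem_fce.1 hj (S'.mem_st.1 h2)))) x y

theorem Fmp.lin (h : Fmp S' S P) {v : V} {f : (ι → ℝ) → ℝ} (hf : Lin (S.st v) f) :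
    Lin (S'.st v) fun z => f (P z) :=
  lin_comp (on_univ f) hf (fun i _ hi => (h i).lin v (S.mem_st.1 hi)) fun _ _ hi => h.indep hi

theorem Fmp.aff (h : Fmp S' S P) {v : V} {f : (ι → ℝ) → ℝ} (hf : Aff (S.st v) f) (r : ι → ℝ) :
    Aff (S'.st v) fun z => f (P z + r) :=
  aff_comp (P := fun z => P z + r) (on_univ f) hf
    (fun i _ hi => aff_add ((h i).lin v (S.mem_st.1 hi)).aff (aff_const _ _))
    fun _ _ hi x y => congrArg (· + r _) (h.indep hi x y)

theorem Fmp.on (h : Fmp S' S P) {F : Finset V} {f : (ι → ℝ) → ℝ} (hf : On (fce S F) f)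
    (r : ι → ℝ) : On (fce S' F) fun z => f (P z + r) := fun z z' hz => hf _ _ fun i hi =>
  congrArg (· + r i) ((h i).on z z' fun j hj => hz j (fce_mono (mem_fce.1 hi) hj))

theorem Fmp.kill (h : Fmp S' S P) (v : V) (z : ι' → ℝ) :
    P (mix (S'.st v) 0 z) = mix (S.st v) 0 (P z) := by
  funext i
  by_cases hi : i ∈ S.st v
  · rw [mix_pos _ _ hi]; exact ((h i).lin v (S.mem_st.1 hi)).zero z
  · rw [mix_neg _ _ hi, h.indep hi]

theorem Fmp.alt (h : Fmp S' S P) (I : Finset V) (f : (ι → ℝ) → ℝ) (z : ι' → ℝ) :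
    S'.alt I (fun z => f (P z)) z = S.alt I f (P z) := by
  induction I using Finset.induction_on generalizing z with
  | empty => simp only [MS.alt_empty]
  | insert v I hv ih => rw [MS.alt_insert hv, MS.alt_insert hv, ih, ih, h.kill]

theorem alt_add (I : Finset V) {θ : (ι → ℝ) → ℝ} (hθ : ∀ v ∈ I, Lin (S.st v) θ) (r z : ι → ℝ) :
    S.alt I (fun z => θ (z + r)) z = θ (z + S.kz I r) := by
  induction I using Finset.induction_on generalizing z with
  | empty => rw [MS.alt_empty, MS.kz_empty]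
  | insert v I hv ih =>
    have h1 := (hθ v (mem_insert_self _ _) (z + S.kz I r)).map_add z (S.kz I r)
    rw [MS.alt_insert hv, ih fun w hw => hθ w (mem_insert_of_mem hw),
      ih fun w hw => hθ w (mem_insert_of_mem hw)]
    have e1 : mix (S.st v) (S.kz I r) (z + S.kz I r) = mix (S.st v) 0 z + S.kz I r := by
      funext i; by_cases a : i ∈ S.st v <;> simp [mix, a]
    have e2 : mix (S.st v) z (z + S.kz I r) = z + S.kz (insert v I) r := by
      funext i
      simp only [MS.kz, MS.sts_insert, mix, mem_union, Pi.add_apply]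
      by_cases a : i ∈ S.st v <;> by_cases b : i ∈ S.sts I <;> simp [a, b]
    beta_reduce at h1
    rw [mix_self, e1, e2] at h1
    linarith

/-- the linear part of a shifted form is the form -/
theorem Fmp.alt_shift (h : Fmp S' S P) (hne : ∀ i, (S.fc i).Nonempty) {F : Finset V}
    {θ : (ι → ℝ) → ℝ} (hθ : Fm S (fce S F) F θ) (r : ι → ℝ) (z : ι' → ℝ) :
    S'.alt F (fun z => θ (P z + r)) z = θ (P z) := by
  rw [h.alt F fun y => θ (y + r), alt_add F hθ.lin]
  refine hθ.on _ _ fun i hi => ?_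
  obtain ⟨v, hv⟩ := hne i
  rw [Pi.add_apply, MS.kz, mix_pos _ _ (MS.mem_sts.2 ⟨v, mem_fce.1 hi hv, hv⟩), Pi.zero_apply,
    add_zero]

theorem alt_const {F : Finset V} (hF : F.Nonempty) (c : ℝ) (z : ι → ℝ) :
    S.alt F (fun _ => c) z = 0 := by
  obtain ⟨v, hv⟩ := hF
  exact alt_indep hv (fun _ _ => rfl) z

/-- shifted centres are dominated by the centred system -/
theorem norm_le_shift [Fintype V] [Nonempty V] {p : (ι → ℝ) → ι → ℝ}
    (h : ({ S with p := p } : MS V ι).Ok)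
    (hp : ∀ z i, S.alt (S.fc i) (fun z => p z i) z = S.p z i) {θ θ' : (ι → ℝ) → ℝ}
    (hθ : ∀ v, Aff (S.st v) θ') (he : ∀ z, S.alt univ θ' z = θ z) (q : Finset ι) :
    ‖∑' z, (({ S with p := p } : MS V ι).wt q z : ℂ) * ee (θ' (toR z))‖ ≤ S.bias q θ := by
  have h1 := h.norm_le_bias q (I := univ) univ_nonempty fun v _ => hθ v
  have e1 : ({ S with p := p } : MS V ι).lnr univ = S := by
    simp only [MS.lnr, inter_univ]
    congr 1
    funext z i
    exact hp z i
  have e2 : ({ S with p := p } : MS V ι).alt univ θ' = θ := funext he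
  rwa [e1, e2] at h1

end

end Vale.Agent.P057CO
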