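import Vale.Agent.P057CO.Sub
import Vale.Agent.P057RL.Rel

/-!
Resolutions of forms that are combinations of biased forms.
-/

set_option linter.all false

open Matrix Finset
open scoped Real
open Vale.Agent.P267.H775 Vale.Agent.P057G Vale.Agent.P057MA Vale.Agent.P057SY Vale.Agent.P057PC

namespace Vale.Agent.P057CO

noncomputable section

section aux

variable {V ι ι' K K₁ A B : Type} [DecidableEq V] [Fintype V] [Nonempty V] [Fintype ι]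
  [DecidableEq ι] [Fintype ι'] [DecidableEq ι'] [Fintype K] [DecidableEq K] [Fintype K₁]
  [DecidableEq K₁] [Fintype A] {S : MS V ι}

theorem res_norm {S' : MS V ι} {X₁ : Xt V ι K₁} {X' : Xt V ι K} {P : (ι ⊕ K → ℝ) → ι ⊕ K₁ → ℝ}
    {ψ : B → (ι ⊕ K₁ → ℝ) → ℝ} {t : V} {τ d r : ℕ} {l lam a U U' : ℝ} (h : S.Ok) (hl : 1 ≤ l)
    (e : S' = dil S univ l) (ok : X'.Ok S') (cen : (xt S' X').Cen) (sz : X'.Sz τ U)
    (tf : ∀ k, t ∉ X'.fc k) (mor : Mor (xt S' X') (xt S X₁) P)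
    (inl : ∀ z, P z ∘ Sum.inl = scl S univ d (z ∘ Sum.inl))
    (hψ : ∀ b v, Lin ((xt S X₁).st v) (ψ b))
    (nr : ∀ b, ∃ M : ℕ, M ∣ r ∧ Near (xt S' X') univ univ (fun z => M * ψ b (P z)) (Real.exp U'))
    (r0 : 0 < r) (h1 : r * l ≤ lam) (h2 : lam ≤ Real.exp a) (hV : (Fintype.card V : ℝ) ≤ a)
    (hK : (Fintype.card K : ℝ) ≤ a) (h3 : a * (a * a) + U ≤ U') :
    Res S X₁ ψ t τ (d * r) lam U' := by
  subst e
  have r1 : (1 : ℝ) ≤ r := by exact_mod_cast r0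
  have l0 : 0 < l := by linarith
  have a1 : (r : ℝ) ≤ lam / l := (le_div_iff₀ l0).2 h1
  have a2 := r1.trans a1
  have hA := ok_xt (ok_dil h univ hl) ok
  have e1 : dil (dil S univ l) univ (lam / l) = dil S univ lam := by
    rw [dil_dil, mul_div_cancel₀ _ l0.ne']
  have e2 : dil (xt (dil S univ l) X') univ (lam / l) = xt (dil S univ lam) (dx X' (lam / l)) := by
    rw [dil_xt, e1]
  have hM := mor_scl hA cen a1 (by linarith)
  refine ⟨K, _, _, dx X' (lam / l), fun z => P (scl (xt (dil S univ l) X') univ r z),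
    e1 ▸ ok_dx ok a2, e2 ▸ cen_dil cen univ _, sz_dx ok sz a2
      ((div_le_self (by nlinarith) hl).trans h2) hV hK h3, tf, e2 ▸ mor.comp hM,
    fun z => (inl _).trans ((scl_scl univ d r _).trans (by rw [Nat.cast_mul]; rfl)), fun b => ?_⟩
  obtain ⟨M, ⟨s, hs⟩, I, i1, i2, i3⟩ := nr b
  obtain ⟨n, hn⟩ := Nat.exists_eq_succ_of_ne_zero (card_pos.2 (univ_nonempty (α := V))).ne'
  have M1 : (1 : ℝ) ≤ M := by exact_mod_cast Nat.pos_of_mul_pos_right (hs ▸ r0)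
  have e3 : (r : ℝ) ^ (univ : Finset V).card = M * ((s * r ^ n : ℕ) : ℤ) := by
    rw [hn, pow_succ, mul_comm]
    nth_rw 1 [hs]
    push_cast; ring
  rw [← e2]
  have i4 := i1.smul ((s * r ^ n : ℕ) : ℤ)
  refine ⟨_, ⟨i4.on, i4.lin⟩, (IntV.const _).mul i2, fun z hz => ?_⟩
  have b1 := i3 _ (hM.ball z hz)
  beta_reduce at b1 ⊢
  rw [lin_scl i1.lin, e3, mul_assoc, ← mul_sub, abs_mul,
    abs_of_nonneg (by linarith : (0 : ℝ) ≤ M)] at b1
  exact (le_mul_of_one_le_left (abs_nonneg _) M1).trans b1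

theorem prod_le_exp {q : A → ℕ} {x t y : ℝ} (h : ∀ a, (q a : ℝ) ≤ Real.exp x) (hx : 0 ≤ x)
    (ht : (Fintype.card A : ℝ) ≤ t) (hy : t * x ≤ y) : ((∏ a, q a : ℕ) : ℝ) ≤ Real.exp y := by
  rw [Nat.cast_prod]
  refine (prod_le_prod (fun _ _ => Nat.cast_nonneg _) fun a _ => h a).trans ?_
  rw [prod_const]
  exact pow_le_exp (Real.exp_pos x).le le_rfl hx ht hy

theorem ph_bulk {T : MS V ι'} {X : Xt V ι K} (hT : T.Ok) (hTc : T.Cen) (h : S.Ok) (hX : X.Ok S)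
    (hc : (xt S X).Cen) {P : (ι' → ℝ) → ι ⊕ K → ℝ} (hP : Mor T (xt S X) P)
    {θ : A → (ι ⊕ K → ℝ) → ℝ} {φ : (ι ⊕ K → ℝ) → ℝ} {q : A → ℕ} {cf : A → ℤ} {R : (ι → ℝ) → ℝ}
    {Y : ℝ} (hθ : ∀ a v, Lin ((xt S X).st v) (θ a))
    (hq : ∀ a, 0 < q a ∧ (q a : ℝ) ≤ Real.exp (Y ^ 2) ∧
      Near T univ univ (fun z => q a * θ a (P z)) (Real.exp (Y ^ 2)))
    (hcf : ∀ a, |(cf a : ℝ)| ≤ Real.exp Y) (hR : Fm S univ univ R)
    (hR' : Nle S univ R (Real.exp Y))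
    (hid : ∀ y : ι ⊕ K → ℤ, ln2 (xt S X) univ (toR y) ≤ Real.exp (-Y) →
      ∃ k : ℤ, φ (toR y) = ∑ a, cf a * θ a (toR y) + R (toR y ∘ Sum.inl) + k)
    (Y10 : 10 ≤ Y) (hA : (Fintype.card A : ℝ) ≤ Y)
    (hι : (Fintype.card ι' : ℝ) ≤ Real.exp (Y ^ 2)) :
    1 / 4 ≤ nb (dil T univ (Real.exp (Y ^ 2 + Y ^ 4))) fun z => (∏ a, q a : ℕ) * φ (P z) := by
  obtain ⟨p2, p3, p4, -⟩ := pow_chain Y10
  have ex : ∀ {x y : ℝ}, x ≤ y → Real.exp x ≤ Real.exp y := fun e => Real.exp_le_exp.2 e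
  have x7 : Real.exp (-7) ≤ 1 / 8 := by
    rw [Real.exp_neg, one_div]
    exact inv_anti₀ (by norm_num) (by linarith [Real.add_one_le_exp 7])
  have w1 : 1 ≤ Real.exp (Y ^ 2) := Real.one_le_exp (by positivity)
  have w2 : Real.exp (Y ^ 2) ≤ Real.exp (Y ^ 2 + Y ^ 4) := ex (by linarith)
  refine nb_bulk (r := Real.exp (Y ^ 2) ^ 2) (ok_dil hT univ (w1.trans w2)) (cen_dil hTc univ _)
    (fun y hy => ?_) (by linarith [tail_num Y10 hι, Real.exp_pos (-(Y + 4)), ex (show -Y ≤ -7 by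
      linarith)])
  have l1 := mor_narrow (mor_id T) hT hTc hT hTc w1 w2 hy
  have l2 := mor_narrow hP hT hTc (ok_xt h hX) hc w1 w2 hy
  rw [← Real.exp_sub, sub_add_cancel_left] at l1 l2
  have ρ0 := Real.exp_pos (-Y ^ 4)
  have ρ1 : Real.exp (-Y ^ 4) ≤ 1 := Real.exp_le_one_iff.2 (by linarith)
  obtain ⟨w, hw⟩ := hP.exists_int y
  obtain ⟨k, hk⟩ := hid w (hw ▸ l2.trans (by nlinarith [ex (show -Y ^ 4 ≤ -Y by linarith)]))
  choose I i1 i2 i3 using fun a => (hq a).2.2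
  choose m hm using fun a => i2 a y
  choose s hs using fun a => dvd_prod_of_mem q (mem_univ a)
  have hQ := prod_le_exp (fun a => (hq a).2.1) (by positivity) hA (show _ ≤ Y ^ 3 by ring_nf; rfl)
  have v := Classical.arbitrary V
  have b1 : ∀ a, |(cf a : ℝ) * s a * (q a * θ a (toR w) - m a)| ≤
      Real.exp (Y + Y ^ 3 + (Y ^ 2 + -Y ^ 4)) := fun a => by
    have c1 := Nle.small hT hTc (i3 a) (v := v) (by
      simpa only [one_mul, neg_mul, ← sub_eq_add_neg] using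
        lin_comb (hP.lin (hθ a v)) ((i1 a).lin v (mem_univ v)) (q a) (-1)) ρ0 ρ1 l1
    beta_reduce at c1
    rw [hw, hm, ← Real.exp_add] at c1
    rw [abs_mul, abs_mul, Nat.abs_cast]
    exact mul_le_exp (abs_nonneg _) (mul_le_exp (Nat.cast_nonneg _) (hcf a) (le_trans
      (Nat.cast_le.2 (hs a ▸ Nat.le_mul_of_pos_left _ (hq a).1)) hQ)) c1
  have b2 : |((∏ a, q a : ℕ) : ℝ) * R (toR w ∘ Sum.inl)| ≤ Real.exp (Y ^ 3 + (Y + -Y ^ 4)) := by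
    have c1 := Nle.small h (cen_base hc) hR' (hR.lin v (mem_univ v)) ρ0 ρ1
      (z := toR w ∘ Sum.inl) (by
        rw [hw, ln2_xt] at l2
        linarith [qq_nonneg hX.pd.posSemidef (toR w ∘ Sum.inr - X.g (toR w))])
    rw [abs_mul, Nat.abs_cast]
    exact mul_le_exp (abs_nonneg _) hQ (c1.trans_eq (Real.exp_add _ _).symm)
  refine ⟨∑ a, cf a * s a * m a + (∏ a, q a : ℕ) * k, ?_⟩
  have b3 : ((∏ a, q a : ℕ) : ℝ) * ∑ a, cf a * θ a (toR w) - ∑ a, (cf a : ℝ) * s a * m a =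
      ∑ a, (cf a : ℝ) * s a * (q a * θ a (toR w) - m a) := by
    rw [mul_sum, ← sum_sub_distrib]
    exact sum_congr rfl fun a _ => by rw [hs a]; push_cast; ring
  have b4 := (abs_sum_le_sum_abs _ _).trans (sum_le_card_nsmul univ _ _ fun a _ => b1 a)
  rw [← b3, nsmul_eq_mul, card_univ] at b4
  have b5 := mul_le_exp (Real.exp_pos (Y + Y ^ 3 + (Y ^ 2 + -Y ^ 4))).le
    (show Y + 1 ≤ Real.exp Y from Real.add_one_le_exp Y) le_rfl
  have b6 := mul_le_mul_of_nonneg_right hA (Real.exp_pos (Y + Y ^ 3 + (Y ^ 2 + -Y ^ 4))).le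
  have b7 := ex (show Y ^ 3 + (Y + -Y ^ 4) ≤ Y + Y ^ 3 + (Y ^ 2 + -Y ^ 4) by linarith)
  have b8 := ex (show Y + (Y + Y ^ 3 + (Y ^ 2 + -Y ^ 4)) ≤ -7 by linarith)
  beta_reduce
  rw [hw, hk, Int.cast_add, Int.cast_mul, Int.cast_natCast, Int.cast_sum]
  simp only [Int.cast_mul, Int.cast_natCast]
  rw [abs_le] at b2 b4 ⊢
  constructor <;> linarith [b2.1, b2.2, b4.1, b4.2]

theorem free_part {E : Type} [Fintype E] [DecidableEq E] {X : Xt V ι K} {X₁ : Xt V ι K₁}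
    {i : K₁ → K} {t : V} (pt : Pt X X₁ i) (ht : ∀ k, t ∉ X₁.fc k) (hp : ∀ k, X.fc k ≠ univ)
    (h : S.Ok) (hX : X.Ok S) (hX₁ : X₁.Ok S) {e : E → K} {d τ N : ℕ} {l Y U W Z : ℝ}
    {X1 : Xt V ι E} {P1 : (ι ⊕ E → ℝ) → ι ⊕ K → ℝ} (R : Rg S X e d l X1 P1 τ N Y U) (W1 : 1 ≤ W)
    (sz2 : (dx X1 W).Sz τ (Z - 2)) :
    ∃ (E0 : Type) (_ : Fintype E0) (_ : DecidableEq E0) (X0 : Xt V ι E0)
      (P0 : (ι ⊕ E0 → ℝ) → ι ⊕ K₁ → ℝ), X0.Ok (dil S univ (l * W)) ∧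
      (xt (dil S univ (l * W)) X0).Cen ∧ X0.Sz τ Z ∧ (∀ k, t ∉ X0.fc k) ∧
      Fintype.card E0 ≤ Fintype.card K ∧ Mor (xt (dil S univ (l * W)) X0) (xt S X₁) P0 ∧
      (∀ z, P0 z ∘ Sum.inl = scl S univ d (z ∘ Sum.inl)) ∧
      ∀ φ, (∀ v, Lin ((xt S X₁).st v) φ) →
        1 / 4 ≤ nb (dil (xt (dil S univ l) X1) univ W) (fun z => φ (P1 z ∘ Sum.map id i)) →
        Real.exp (-Z) ≤ nb (xt (dil S univ (l * W)) X0) fun z => φ (P0 z) := by
  have l1 : 1 ≤ l := le_trans (by exact_mod_cast R.d0) R.dl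
  have ok2 := ok_dx R.ok W1
  have cen2 := cen_dil R.cen univ W
  have mor2 := (pt.mor h hX).comp (mor_dil (ok_xt (ok_dil h univ l1) R.ok) R.cen R.mor W1)
  rw [dil_xt, dil_dil] at cen2 mor2 ⊢
  rw [dil_dil] at ok2
  have h2 := ok_dil h univ (one_le_mul_of_one_le_of_one_le l1 W1)
  have pa := pt_av (t := t) ok2
  have on2 : ∀ j, On (univ.image (Sum.map id (Subtype.val : {k // t ∉ (dx X1 W).fc k} → E)))
      fun z => (P1 z ∘ Sum.map id i) j := by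
    rintro (j | j)
    · intro z z' e
      refine (congrFun (R.inl z) j).trans (Eq.trans ?_ (congrFun (R.inl z') j).symm)
      exact congrArg (_ * ·) (e (Sum.inl j) (mem_av.2 fun _ e => nomatch e))
    · refine (mor2.fm (Sum.inr j)).on.mono fun a ha => mem_av.2 ?_
      rintro k rfl
      exact fun e => ht j (mem_fce.1 ha e)
  have mor3 := pa.mor_ez h2 ok2 cls_av (ok_xt h hX₁) mor2 on2
  have sz3 := sz_av (t := t) ok2 sz2
  refine ⟨_, _, _, av (dx X1 W) t, _, ok_av ok2, pa.cen cen2, ⟨sz3.tr, sz3.card.trans (by linarith),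
    sz3.sep, sz3.cx.trans (Real.exp_le_exp.2 (by linarith))⟩, fun k => k.2,
    (Fintype.card_subtype_le _).trans (Fintype.card_le_of_injective _ R.inj), mor3,
    fun z => (R.inl _).trans (congrArg _ (funext fun a =>
      ez_inl Subtype.val_injective _ (Sum.inl a))), fun φ hφ hb => ?_⟩
  have hl := fun v => mor3.lin (hφ v)
  have f1 := pa.nb_le h2 ok2 cen2 cls_av (fun k => (R.fc k).trans_ne (hp _)) hl
  have f2 : ∀ z, P1 (Pt.ez Subtype.val (z ∘ Sum.map id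
      (Subtype.val : {k // t ∉ (dx X1 W).fc k} → E))) ∘ Sum.map id i = P1 z ∘ Sum.map id i :=
    fun z => funext fun j => pa.ez_on (on2 j) z
  simp only [f2] at f1
  have f3 := (hb.trans f1).trans (mul_le_mul_of_nonneg_right sz2.cx
    (nb_nonneg (ok_xt h2 (ok_av ok2)) (pa.cen cen2) hl))
  rw [← div_le_iff₀' (Real.exp_pos _), div_eq_mul_inv, ← Real.exp_neg] at f3
  linarith [exp_quarter (x := -Z) (Z := Z - 2) (by linarith)]

theorem nb_wide {X : Xt V ι K} (h : S.Ok) (hX : X.Ok S) (hc : (xt S X).Cen) {ω δ : ℝ}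
    (w0 : 0 < ω) (w1 : ω ≤ 1) {θ : (ι ⊕ K → ℝ) → ℝ} (hθ : ∀ v, Lin ((xt S X).st v) θ)
    (hb : δ * vl (xt S (X.sm ω)).G univ ≤ (xt S (X.sm ω)).bias univ θ) : δ ≤ nb (xt S X) θ := by
  have hω := ok_xt h (P057RL.ok_sm hX w0)
  refine ((le_div_iff₀ (vl_pos hω.pd _)).2 hb).trans (bias_narrow hω (hc.gram _)
    (H := (xt S X).G) (ok_xt h hX) (fun x => ?_) univ hθ)
  refine (qq_blocks _ _ _).trans_le (le_trans ?_ (qq_blocks _ _ _).ge)
  rw [qq_smul_mat]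
  linarith [mul_le_of_le_one_left (qq_nonneg hX.pd.posSemidef (x ∘ Sum.inr)) w1]

end aux

theorem res_num {c C : ℕ} {Y : ℝ} (Y10 : 10 ≤ Y) (hC : (c + 8) * (c + 2) + 2 ≤ C) :
    ∃ Z D : ℝ, Y * (Y * (Y ^ 2 + Y ^ 4)) + Y ^ c ≤ Z - 2 ∧ Y ≤ Z ∧ Y * Y ^ 2 ≤ D ∧ Y ≤ D ∧
      Z ^ c ≤ D ∧ Z ^ 2 ≤ D ∧ Y ^ c ≤ D ∧ Y ^ c + (Y ^ 2 + Y ^ 4) ≤ D ∧
      D + D + Y * (D + (D + D)) ≤ Y ^ C ∧ D + Y * D ≤ Y ^ C ∧ D + D ≤ Y ^ C ∧ D ≤ Y ^ C ∧
      ∀ y, Y ≤ y → y * (y * y) + D ≤ y ^ C ∧ D ≤ y ^ C := by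
  obtain ⟨p2, p3, p4, p5, p6, p7⟩ := pow_chain Y10
  have m : ∀ {a b : ℕ} {y : ℝ}, Y ≤ y → a ≤ b → y ^ a ≤ y ^ b := fun e0 e =>
    pow_le_pow_right₀ (by linarith) e
  have h1 := m le_rfl (show c ≤ c + 7 by omega)
  have h2 := m le_rfl (show 7 ≤ c + 7 by omega)
  have h3 : 10 * Y ^ (c + 7) ≤ Y ^ (c + 8) := by rw [pow_succ Y (c + 7)]; nlinarith
  have h4 := m le_rfl (show c + 8 ≤ (c + 8) * (c + 2) by nlinarith)
  have h5 : ∀ y, Y ≤ y → 10 * y ^ ((c + 8) * (c + 2)) ≤ y * y ^ ((c + 8) * (c + 2)) ∧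
      10 * (y * y ^ ((c + 8) * (c + 2))) ≤ y ^ C := fun y hy => by
    have a := pow_nonneg (show 0 ≤ y by linarith) ((c + 8) * (c + 2))
    refine ⟨by nlinarith, le_trans ?_ (m hy hC)⟩
    rw [pow_add]
    nlinarith [mul_nonneg (show 0 ≤ y by linarith) a]
  obtain ⟨h6, h7⟩ := h5 Y le_rfl
  have h8 : 0 ≤ Y ^ c := by positivity
  refine ⟨Y ^ (c + 8), Y ^ ((c + 8) * (c + 2)), by linarith, by linarith, by linarith, by linarith,
    by rw [← pow_mul]; exact m le_rfl (by nlinarith), by rw [← pow_mul]; exact m le_rfl (by nlinarith),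
    by linarith, by linarith, by linarith, by linarith, by linarith, by linarith, fun y hy => ?_⟩
  have a1 := pow_le_pow_left₀ (by linarith) hy ((c + 8) * (c + 2))
  have a2 := m hy (show 3 ≤ (c + 8) * (c + 2) by nlinarith)
  obtain ⟨a3, a4⟩ := h5 y hy
  constructor <;> linarith

theorem corep (n τ : ℕ) : P057RL.COREP n τ := by
  obtain ⟨c, hc⟩ := core2 n τ
  refine ⟨(c + 8) * (c + 2) + 2 + (c + n + 10), fun V ι K K₁ A B _ _ _ _ _ _ _ _ _ _ S X X₁ i t θ ψ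
    ω Y hV h hSc hX hXc hs hp hX₁ i1 i2 i3 i4 hY hι hA hB hm w1 w2 _ hθ hψ => ?_⟩
  haveI : Nonempty V := ⟨t⟩
  have hY' : ∀ k, k ≤ c + n + 10 → (k : ℝ) ≤ Y := fun k e => le_trans (Nat.cast_le.2 (by omega)) hY
  have Y10 : 10 ≤ Y := by exact_mod_cast hY' 10 (by omega)
  have Y1 : 1 ≤ Y := by linarith
  have hVY := hY' (Fintype.card V) (by omega)
  have hc1 := hY' c (by omega)
  have ex : ∀ {x y : ℝ}, x ≤ y → Real.exp x ≤ Real.exp y := fun e => Real.exp_le_exp.2 e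
  have p1 : Real.exp Y + Y ≤ Real.exp (Y ^ 2) := by
    linarith [Real.add_one_le_exp Y, mul_le_exp (Real.exp_pos Y).le two_le_exp le_rfl,
      ex (show 1 + Y ≤ Y ^ 2 by linarith [(pow_chain Y10).1])]
  obtain ⟨Z, D, n1, n2, n3, n4, n5, n6, n7, n8, n9, m1, m2, m3, m4⟩ :=
    res_num (c := c) Y10 (Nat.le_add_right _ (c + n + 10))
  have D0 : 0 ≤ D := by linarith
  have sm : ∀ {W η : ℝ}, 0 < W → W ≤ _ → _ ≤ η → Smo S univ (max 0 c) W η := fun a b d =>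
    hm.mono h hSc (cls_univ _) (cls_univ _) Subset.rfl (by omega) a b d
  have pt : Pt X X₁ i := ⟨i1, fun k => (i2 k).1, fun k => (i2 k).2.2, i3, i4⟩
  obtain ⟨E1, _, _, e1, d1, l1, X1, P1, R1, H1⟩ := hc V ι K S X 0 Y hV inferInstance h hX hXc hs
    hc1 hι (by simpa using Y1) (sm (Real.exp_pos _) (ex (n7.trans m3))
      (ex (neg_le_neg (n7.trans m3))))
  choose q hq using fun a => H1 (θ a) (hθ a).1
    (nb_wide h hX hXc ((Real.exp_pos _).trans_le w1) w2 (hθ a).1 (hθ a).2)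
  choose cf q0 R a1 a2 a3 a4 a5 a6 using fun b => (hψ b).2
  have k1 : (Fintype.card E1 : ℝ) ≤ Y :=
    le_trans (Nat.cast_le.2 (Fintype.card_le_of_injective _ R1.inj)) hs.card
  have l11 : 1 ≤ l1 := le_trans (by exact_mod_cast R1.d0) R1.dl
  have b1 := fun b => ph_bulk (ok_xt (ok_dil h univ l11) R1.ok) R1.cen h hX hXc R1.mor
    (φ := fun y => q0 b * ψ b (y ∘ Sum.map id i)) (fun a => (hθ a).1) hq (a3 b) (a4 b) (a5 b)
    (a6 b) Y10 hA (by rw [Fintype.card_sum, Nat.cast_add]; exact (add_le_add hι k1).trans p1)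
  have W1 : 1 ≤ Real.exp (Y ^ 2 + Y ^ 4) := Real.one_le_exp (by positivity)
  obtain ⟨E0, _, _, X0, P0, u1, u2, u3, u4, u5, u6, u7, u8⟩ := free_part pt (fun k => (i2 k).2.1)
    hp h hX hX₁ R1 W1 (sz_dx R1.ok R1.sz W1 le_rfl hVY k1 n1)
  have l12 := one_le_mul_of_one_le_of_one_le l11 W1
  have l13 := (mul_le_exp (Real.exp_pos _).le R1.lam_le le_rfl).trans (ex n8)
  obtain ⟨E2, _, _, e2, d2, l2, X2, P2, R2, H2⟩ := hc V ι _ _ _ 0 Z hV inferInstance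
    (ok_dil h univ l12) u1 u2 u3 (hc1.trans n2) (hι.trans (ex n2)) (by simpa using Y1.trans n2)
    (Smo.dil h hSc (Real.exp_pos _) l12 (sm (by positivity) ((mul_le_exp (by positivity) (ex n5)
      (pow_le_exp (by positivity) l13 D0 hVY le_rfl)).trans (ex m1))
      (ex (neg_le_neg (n5.trans m3)))))
  have hl : ∀ b v, Lin ((xt S X₁).st v) fun z => ((∏ a, q a : ℕ) : ℝ) * (q0 b * ψ b z) :=
    fun b v => (((fm_univ (hψ b).1).smul (q0 b)).smul (∏ a, q a : ℕ)).lin v (mem_univ v)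
  have b2 := fun b => u8 _ (hl b) (b1 b)
  choose q2 hq2 using fun b => H2 (fun z => ((∏ a, q a : ℕ) : ℝ) * (q0 b * ψ b (P0 z)))
    (fun v => u6.lin (hl b v)) (b2 b)
  have hQ := prod_le_exp (fun a => (hq a).2.1) (by positivity) hA n3
  have l21 : 1 ≤ l2 := le_trans (by exact_mod_cast R2.d0) R2.dl
  have l22 := R2.lam_le.trans (ex n5)
  have r0 : 0 < ∏ b, q2 b * ((∏ a, q a) * q0 b) := prod_pos fun b _ =>
    Nat.mul_pos (hq2 b).1 (Nat.mul_pos (prod_pos fun a _ => (hq a).1) (a1 b))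
  refine ⟨d1 * d2 * ∏ b, q2 b * ((∏ a, q a) * q0 b), Nat.mul_pos (Nat.mul_pos R1.d0 R2.d0) r0, ?_,
    fun d lam y d0 ⟨s, hd⟩ g1 g2 g3 => ?_⟩
  · rw [Nat.cast_mul, Nat.cast_mul]
    refine (mul_le_exp (Nat.cast_nonneg _) (mul_le_exp (Nat.cast_nonneg _) (R1.dl.trans
      ((le_mul_of_one_le_right (zero_le_one.trans l11) W1).trans l13)) (R2.dl.trans l22))
      (prod_le_exp (x := D + (D + D)) (fun b => ?_) (by positivity) hB le_rfl)).trans (ex n9)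
    rw [Nat.cast_mul, Nat.cast_mul]
    exact mul_le_exp (by positivity) ((hq2 b).2.1.trans (ex n6))
      (mul_le_exp (Nat.cast_nonneg _) hQ ((a2 b).trans (ex n4)))
  rw [mul_assoc] at hd
  have s0 := Nat.pos_of_mul_pos_left (hd ▸ d0)
  rw [hd]
  refine res_norm h (one_le_mul_of_one_le_of_one_le l12 l21) (dil_dil _ _ _) R2.ok R2.cen R2.sz
    (fun k => R2.fc k ▸ u4 _) (u6.comp R2.mor) (fun z => ?_) (fun b => (hψ b).1)
    (fun b => ⟨_, (dvd_prod_of_mem _ (mem_univ b)).mul_right s, ?_⟩) s0 (le_trans (mul_le_mul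
      (Nat.cast_le.2 (hd ▸ Nat.le_mul_of_pos_left _ (Nat.mul_pos R1.d0 R2.d0)))
      ((mul_le_exp (zero_le_one.trans l21) l13 l22).trans (ex m2)) (by positivity)
      (Nat.cast_nonneg _)) g1) g2 (hVY.trans g3) (le_trans (Nat.cast_le.2
      ((Fintype.card_le_of_injective _ R2.inj).trans u5)) (hs.card.trans g3))
    ((add_le_add le_rfl n5).trans (m4 y g3).1)
  · rw [u7, Nat.cast_mul, ← scl_scl]
    exact congrArg _ (R2.inl z)
  · simpa only [Nat.cast_mul, mul_assoc] using (hq2 b).2.2.mono (ex (n6.trans (m4 y g3).2))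

theorem rel (s τ : ℕ) : REL s τ := P057RL.rel s τ (corep (s + 1) τ)

end

end Vale.Agent.P057CO
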