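import Vale.Agent.P057CO.Mono
import Vale.Agent.P057SH.Mass
import Vale.Agent.P057ST.Cos
import Vale.Agent.P057HU.Quad

/-!
Normalised sums, block systems, cosets, pull back of extra coordinates.
-/

set_option linter.all false

open Matrix Finset
open scoped Real
open Vale.Agent.P267.H775 Vale.Agent.P057G Vale.Agent.P057MA Vale.Agent.P057SY Vale.Agent.P057PC

namespace Vale.Agent.P057CO

noncomputable section

section ser

variable {L K : Type} [Fintype L] [DecidableEq L] [Fintype K] [DecidableEq K]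

theorem toR_elim (z : L → ℤ) (u : K → ℤ) : toR (Sum.elim z u) = Sum.elim (toR z) (toR u) := by
  funext a; rcases a with i | j <;> rfl

theorem Ex_blocks {A : Matrix L L ℝ} {B : Matrix K K ℝ} (hA : A.PosDef) (hB : B.PosDef)
    {lv : L ⊕ K → ℕ} {p : (L ⊕ K → ℤ) → L ⊕ K → ℝ} (hp : Tri lv p) {p1 : (L → ℤ) → L → ℝ}
    {p2 : (L → ℤ) → (K → ℤ) → K → ℝ} (h : ∀ z u, p (Sum.elim z u) = Sum.elim (p1 z) (p2 z u))
    {f : (L ⊕ K → ℤ) → ℂ} {C : ℝ} (hf : ∀ z, ‖f z‖ ≤ C) :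
    Ex (fromBlocks A 0 0 B) p f = Ex A p1 fun z => Ex B (p2 z) fun u => f (Sum.elim z u) := by
  have hs := summable_Ex hp (posDef_blocks hA hB) hf
  let e := (Equiv.sumArrowEquivProdArrow L K ℤ).symm
  rw [Ex, ← e.tsum_eq]
  refine (e.summable_iff.2 hs).tsum_prod.trans (tsum_congr fun z => ?_)
  beta_reduce
  rw [Ex, ← tsum_mul_left]
  refine tsum_congr fun u => ?_
  change (ng _ (toR (Sum.elim z u) - p (Sum.elim z u)) : ℂ) * f (Sum.elim z u) = _
  rw [ng_blocks hA, h, Complex.ofReal_mul, mul_assoc]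
  rfl

theorem th_blocks {A : Matrix L L ℝ} {B : Matrix K K ℝ} (hA : A.PosDef) (hB : B.PosDef) :
    th (fromBlocks A 0 0 B)⁻¹ 0 = th A⁻¹ 0 * th B⁻¹ 0 := by
  have h := Ex_blocks hA hB (lv := fun _ => 0) (p := fun _ => 0) (fun _ _ _ _ => rfl)
    (p1 := fun _ => 0) (p2 := fun _ _ => 0) (fun _ _ => by simp) (f := fun _ => 1) (C := 1) (by simp)
  have h2 := Ex_mul_const A (fun _ => 0) (fun _ => 1) (ms B fun _ => 0)
  simp only [Ex_one, mul_one] at h h2
  rw [h2, ms_zero hA, ms_zero hB, ms_zero (posDef_blocks hA hB), mul_comm] at h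
  exact_mod_cast h

theorem Ex_swap {A : Matrix L L ℝ} {B : Matrix K K ℝ} (hA : A.PosDef) (hB : B.PosDef)
    {lv : L → ℕ} {p : (L → ℤ) → L → ℝ} (hp : Tri lv p) {F : (L → ℤ) → (K → ℤ) → ℂ} {C D : ℝ}
    (hF : ∀ z u, ‖F z u‖ ≤ C) (hD : ∀ u, ‖Ex A p fun z => F z u‖ ≤ D) :
    ‖Ex A p fun z => Ex B (fun _ => 0) (F z)‖ ≤ D * th B⁻¹ 0 := by
  have t0 : Tri (fun _ => 0) fun (_ : K → ℤ) => (0 : K → ℝ) := fun _ _ _ _ => rfl
  have h1 := summable_mul_cx ((summable_ng hp hA).mul_of_nonneg (summable_ng t0 hB)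
    (fun _ => ng_nonneg _ _) fun _ => ng_nonneg _ _)
    (fun _ => mul_nonneg (ng_nonneg _ _) (ng_nonneg _ _)) (f := fun x => F x.1 x.2)
    fun x => hF _ _
  have h2 : (Ex A p fun z => Ex B (fun _ => 0) (F z)) =
      Ex B (fun _ => 0) fun u => Ex A p fun z => F z u := by
    simp only [Ex, ← tsum_mul_left]
    rw [← Summable.tsum_comm (f := fun z u => (ng A (toR z - p z) : ℂ) *
      ((ng B (toR u - 0) : ℂ) * F z u))
      (h1.congr fun x => by simp only [Complex.ofReal_mul, mul_assoc]; rfl)]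
    simp only [mul_left_comm]
  rw [h2, ← ms_zero hB]
  exact norm_Ex_le t0 hB hD

theorem th_lower {G : Matrix L L ℝ} (hG : G.PosDef) (t : L → ℝ) : gs G t * th G 0 ≤ th G t := by
  have h1 := (hasSum_th hG t).add (hasSum_th hG (-t))
  have h2 := ((hasSum_th hG 0).mul_right (gs G t)).mul_left 2
  have h3 := hasSum_le (fun z => by
    simpa only [sub_zero, sub_neg_eq_add] using P057HU.gs_cosh hG.1 (toR z) t) h2 h1
  rw [th_neg] at h3
  linarith

/-- a small shift of the centre -/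
theorem Ex_shift {G : Matrix L L ℝ} (hG : G.PosDef) {t : L → ℝ} {ε : ℝ} (h0 : 0 < ε)
    (h1 : ε ≤ 1 / 3) (ht : qq G t ≤ ε ^ 2) {f : (L → ℤ) → ℂ} {C : ℝ} (hf : ∀ z, ‖f z‖ ≤ C) :
    ‖Ex G (fun _ => t) f - Ex G (fun _ => 0) f‖ ≤ C * (13 * ε) * th G⁻¹ 0 := by
  have hC := (norm_nonneg _).trans (hf 0)
  have q0 := qq_nonneg hG.posSemidef t
  have tr : ∀ t : L → ℝ, Tri (fun _ => 0) fun (_ : L → ℤ) => t := fun _ _ _ _ _ => rfl
  have s1 := ((((hasSum_th hG ((2 : ℝ) • t)).mul_left (Real.exp (2 * π * qq G t))).sub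
    ((hasSum_th hG t).mul_left 2)).add (hasSum_th hG 0)).div_const (2 * ε)
  have s2 := ((s1.add ((hasSum_th hG 0).mul_left (ε / 2))).div_const (vol G)).mul_left C
  unfold Ex
  rw [← (summable_Ex (tr t) hG hf).tsum_sub (summable_Ex (tr 0) hG hf)]
  refine (tsum_of_norm_bounded s2 fun z => ?_).trans ?_
  · rw [← sub_mul, ← Complex.ofReal_sub, norm_mul, Complex.norm_real, Real.norm_eq_abs, mul_comm]
    refine mul_le_mul (hf z) ?_ (abs_nonneg _) hC
    rw [ng, ng, ← sub_div, abs_div, abs_of_pos (vol_pos hG), sub_zero]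
    refine div_le_div_of_nonneg_right ?_ (vol_pos hG).le
    have a1 := gs_sub_sq hG.1 (toR z) t
    have b0 := gs_pos G (toR z)
    set a := gs G (toR z - t)
    set b := gs G (toR z)
    set c := Real.exp (2 * π * qq G t) * gs G (toR z - (2 : ℝ) • t)
    refine le_of_mul_le_mul_left ?_ (mul_pos b0 (by positivity : 0 < 2 * ε))
    have e : b * (2 * ε) * ((c - 2 * a + b) / (2 * ε) + ε / 2 * b) = (a - b) ^ 2 + ε ^ 2 * b ^ 2 := by
      clear_value a b c
      field_simp; linear_combination (-1) * a1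
    rw [e, ← sq_abs (a - b)]
    nlinarith [sq_nonneg (|a - b| - ε * b)]
  · rw [mul_assoc C]
    refine mul_le_mul_of_nonneg_left ?_ hC
    rw [div_le_iff₀ (vol_pos hG), mul_assoc (13 * ε), mul_comm _ (vol G), ← th_zero_eq hG]
    have p0 := th_nonneg G 0
    have a1 := th_le_th_zero hG ((2 : ℝ) • t)
    have a2 := th_lower hG t
    have a3 : 1 - 4 * ε ^ 2 ≤ gs G t := by
      have := Real.add_one_le_exp (-(π * qq G t))
      unfold gs
      nlinarith [Real.pi_le_four, Real.pi_pos]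
    have a4 : Real.exp (2 * π * qq G t) ≤ 1 + 16 * ε ^ 2 := by
      have b1 : 2 * π * qq G t ≤ 8 * ε ^ 2 := by nlinarith [Real.pi_le_four, Real.pi_pos]
      have b2 := Real.abs_exp_sub_one_le (x := 8 * ε ^ 2) (by
        rw [abs_of_nonneg (by positivity)]; nlinarith)
      rw [abs_of_nonneg (by positivity : 0 ≤ 8 * ε ^ 2)] at b2
      linarith [Real.exp_le_exp.2 b1, (abs_le.1 b2).2]
    have a5 := mul_le_mul a4 a1 (th_nonneg _ _) (by positivity)
    have a6 := mul_le_mul_of_nonneg_right a3 p0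
    have a7 : (Real.exp (2 * π * qq G t) * th G ((2 : ℝ) • t) - 2 * th G t + th G 0) / (2 * ε) ≤
        12 * ε * th G 0 := by
      rw [div_le_iff₀ (by positivity)]; nlinarith
    nlinarith

theorem Ex_far {G : Matrix L L ℝ} (hG : G.PosDef) (t : L → ℝ) {f : (L → ℤ) → ℂ} {C : ℝ}
    (hf : ∀ z, ‖f z‖ ≤ C) : ‖Ex G (fun _ => t) f‖ ≤ C * th G⁻¹ 0 := by
  refine (norm_Ex_le (lv := fun _ => 0) (fun _ _ _ _ => rfl) hG hf).trans ?_
  rw [← ms_zero hG]
  exact mul_le_mul_of_nonneg_left (P057SH.ms_const_le hG t) ((norm_nonneg _).trans (hf 0))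

theorem Ex_move (G : Matrix L L ℝ) (x : L → ℝ) (M : L → ℤ) (f : (L → ℤ) → ℂ) :
    Ex G (fun _ => x) f = Ex G (fun _ => x - toR M) fun m => f (M + m) := by
  unfold Ex
  rw [← (Equiv.addLeft M).tsum_eq]
  refine tsum_congr fun m => ?_
  rw [Equiv.coe_addLeft, toR_add]
  congr 3
  funext i; simp only [Pi.sub_apply, Pi.add_apply]; ring

end ser

variable {V ι ι' E : Type} [DecidableEq V] [Fintype ι] [DecidableEq ι] [Fintype ι']
  [DecidableEq ι'] [Fintype E] [DecidableEq E] {S : MS V ι} {S' : MS V ι'}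

/-- the normalised sum over a system -/
def EX (S : MS V ι) (f : (ι → ℤ) → ℂ) : ℂ := Ex S.G (fun z => S.p (toR z)) f

theorem tri (h : S.Ok) : Tri S.lv fun z => S.p (toR z) := fun i z z' hz =>
  h.loc i _ _ fun j hj => by rw [toR_apply, toR_apply, hz j hj.2]

theorem wt_all (z : ι → ℤ) : S.wt univ z = gs S.G (toR z - S.p (toR z)) := by
  rw [MS.wt, if_pos (by simp)]
  exact congrArg _ (funext fun i => msk_pos _ (mem_univ i))

theorem EX_eq (f : (ι → ℤ) → ℂ) :
    EX S f = (∑' z, (S.wt univ z : ℂ) * f z) / (vl S.G univ : ℝ) := by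
  simp only [EX, Ex, ng, wt_all, vl_univ, ← tsum_div_const]
  exact tsum_congr fun z => by push_cast; ring

theorem EX_real (f : (ι → ℤ) → ℝ) :
    EX S (fun z => f z) = ((∑' z, S.wt univ z * f z) / vl S.G univ : ℝ) := by
  rw [EX_eq]; push_cast; rfl

variable [Fintype V]

theorem nb_re (h : S.Ok) (θ : (ι → ℝ) → ℝ) : nb S θ = (EX S fun z => ee (θ (toR z))).re := by
  rw [EX_eq, Complex.div_ofReal_re, h.re_bias, nb]

theorem nb_le (h : S.Ok) (θ : (ι → ℝ) → ℝ) : nb S θ ≤ ‖EX S fun z => ee (θ (toR z))‖ :=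
  (nb_re h θ).le.trans (Complex.re_le_norm _)

theorem EX_shift [Nonempty V] {p : (ι → ℝ) → ι → ℝ} (h : ({ S with p := p } : MS V ι).Ok)
    (hp : ∀ z i, S.alt (S.fc i) (fun z => p z i) z = S.p z i) {θ θ' : (ι → ℝ) → ℝ}
    (hθ : ∀ v, Aff (S.st v) θ') (he : ∀ z, S.alt univ θ' z = θ z) :
    ‖EX ({ S with p := p } : MS V ι) fun z => ee (θ' (toR z))‖ ≤ nb S θ := by
  have p0 : 0 < vl S.G univ := vl_pos h.pd _
  rw [EX_eq, norm_div, Complex.norm_real, Real.norm_of_nonneg p0.le]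
  exact div_le_div_of_nonneg_right (norm_le_shift h hp hθ he univ) p0.le

theorem fm_univ {θ : (ι → ℝ) → ℝ} (hθ : ∀ v, Lin (S.st v) θ) : Fm S (fce S univ) univ θ :=
  ⟨(on_univ θ).mono fun _ _ => mem_fce.2 (subset_univ _), fun v _ => hθ v⟩

theorem fm_p' (h : S.Ok) (hc : S.Cen) (i : ι) :
    Fm S (fce S (S.fc i)) (S.fc i) fun z => S.p z i :=
  (fm_p h hc i).mono inter_subset_left Subset.rfl

/-! ### cosets -/

/-- the system on a coset of a diagonal sublattice -/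
def cs (S : MS V ι) (D : ι → ℤ) (r : ι → ℝ) : MS V ι :=
  ⟨S.fc, S.lv, P057ST.dil D S.G, fun z i => (S.p (toR D * z + r) i - r i) / D i⟩

theorem fmp_mul (D : ι → ℝ) : Fmp S S fun z => D * z := fun i => ((mor_id S).fm i).smul (D i)

theorem ok_cs (h : S.Ok) {D : ι → ℤ} (hD : ∀ i, D i ≠ 0) (r : ι → ℝ) : (cs S D r).Ok := by
  refine ⟨P057ST.posDef_dil hD h.pd, fun i j hij => h.orth i j fun e => hij ?_,
    fun i z z' hz => ?_, fun v i hv => ?_⟩
  · change P057ST.dil D S.G i j = 0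
    rw [P057ST.dil_apply, e]; simp
  · change _ / _ = _ / _
    rw [h.loc i _ (toR D * z' + r) fun j hj => by simp [hz j hj]]
  · have := aff_smul (aff_add ((fmp_mul (toR D)).aff (h.aff v i hv) r) (aff_const _ (-r i)))
      ((D i : ℝ))⁻¹
    simp only [cs, div_eq_inv_mul, sub_eq_add_neg]
    exact this

theorem cen_cs (h : S.Ok) (hc : S.Cen) (D : ι → ℤ) : (cs S D 0).Cen := by
  refine ⟨hc.ne, fun v i hv y => ?_⟩
  have := ((fmp_mul (toR D)).lin (h.lin hc hv)).zero y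
  change (S.p (toR D * mix (S.st v) 0 y + 0) i - 0) / _ = 0
  rw [add_zero, this, sub_zero, zero_div]

/-- passing to a diagonal sublattice does not decrease the normalised bias -/
theorem nb_cos [Nonempty V] (h : S.Ok) (hc : S.Cen) {D : ι → ℤ} (hD : ∀ i, D i ≠ 0)
    {θ : (ι → ℝ) → ℝ} (hθ : ∀ v, Lin (S.st v) θ) :
    nb S θ ≤ nb (cs S D 0) fun z => θ (toR D * z) := by
  have h1 := P057ST.Ex_cos (tri h) h.pd hD (f := fun z => ee (θ (toR z))) (C := 1)
    fun _ => (norm_ee _).le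
  have e : ∀ r z : ι → ℤ, toR (r + D * z) = toR D * toR z + toR r := fun r z => by
    funext i; simp [add_comm]
  have h2 : ∀ r : ι → ℤ, ‖Ex (P057ST.dil D S.G) (P057ST.pc (fun z => S.p (toR z)) D r (toR r))
      fun z => ee (θ (toR (r + D * z)))‖ ≤ nb (cs S D 0) fun z => θ (toR D * z) := fun r => by
    have := EX_shift (S := cs S D 0) (p := (cs S D (toR r)).p) (ok_cs h hD _) (fun z i => by
      have a1 := (fmp_mul (toR D)).alt_shift hc.ne (fm_p' h hc i) (toR r) z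
      have a2 := alt_const (S := S) (hc.ne i) (toR r i) z
      change S.alt _ (fun z => (S.p (toR D * z + toR r) i - toR r i) / D i) z =
        (S.p (toR D * z + 0) i - 0) / _
      rw [add_zero, ← a1, ← a2]
      simp only [MS.alt]
      rw [← sum_sub_distrib, sum_div]
      exact sum_congr rfl fun _ _ => by rw [← mul_sub, mul_div_assoc])
      (θ := fun z => θ (toR D * z)) (θ' := fun z => θ (toR D * z + toR r))
      (fun v => (fmp_mul (toR D)).aff (hθ v).aff _)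
      fun z => (fmp_mul (toR D)).alt_shift hc.ne (fm_univ hθ) _ z
    unfold P057ST.pc
    simp only [e]
    exact this
  have h3 := (norm_sum_le _ _).trans (sum_le_card_nsmul (P057ST.rsd D) _ _ fun r _ => h2 r)
  rw [← h1, norm_mul, Complex.norm_natCast, nsmul_eq_mul] at h3
  refine (nb_le h θ).trans (le_of_mul_le_mul_left h3 ?_)
  rw [P057ST.card_rsd]
  exact prod_pos fun l _ => abs_pos.2 (by exact_mod_cast hD l)

/-! ### extra coordinates -/

variable {X : Xt V ι E} {P : (ι' → ℝ) → ι → ℝ}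

theorem fmp_inl : Fmp (xt S X) S fun z => z ∘ Sum.inl := fun i => (mor_id (xt S X)).fm (Sum.inl i)

theorem Fmp.aff0 (h : Fmp S' S P) {v : V} {f : (ι → ℝ) → ℝ} (hf : Aff (S.st v) f) :
    Aff (S'.st v) fun z => f (P z) := by simpa only [add_zero] using h.aff hf 0

theorem Fmp.fm (h : Fmp S' S P) {F L : Finset V} {f : (ι → ℝ) → ℝ} (hf : Fm S (fce S F) L f) :
    Fm S' (fce S' F) L fun z => f (P z) :=
  ⟨by simpa only [add_zero] using h.on hf.on 0, fun v hv => h.lin (hf.lin v hv)⟩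

theorem ok_xt (h : S.Ok) (hX : X.Ok S) : (xt S X).Ok := by
  refine ⟨posDef_blocks h.pd hX.pd, fun a b hab => ?_, fun a z z' hz => ?_, fun v a hv => ?_⟩
  · rcases a with i | i <;> rcases b with j | j
    · exact h.orth i j hab
    · exact absurd rfl hab
    · exact absurd rfl hab
    · exact ⟨(hX.ort i j hab).1, congrArg (_ + ·) (hX.ort i j hab).2⟩
  · rcases a with i | j
    · exact h.loc i _ _ fun k hk => hz (Sum.inl k) hk
    · exact hX.loc j _ _ (fun k hk => hz (Sum.inl k) ⟨hk, (lv_lt (S := S) k).trans_le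
        (Nat.le_add_right _ _)⟩) fun k h1 h2 => hz (Sum.inr k) ⟨h1, Nat.add_lt_add_left h2 _⟩
  · rcases a with i | j
    · exact fmp_inl.aff0 (h.aff v i hv)
    · exact hX.aff v j

theorem cen_base (hc : (xt S X).Cen) : S.Cen := by
  refine ⟨fun i => hc.ne (Sum.inl i), fun v i hv y => ?_⟩
  have := hc.zero v (Sum.inl i) hv (Sum.elim y 0)
  rwa [show (xt S X).p _ (Sum.inl i) = S.p (_ ∘ Sum.inl) i from rfl, fmp_inl.kill] at this

theorem EX_xt (h : S.Ok) (hX : X.Ok S) {f : (ι ⊕ E → ℤ) → ℂ} {C : ℝ} (hf : ∀ z, ‖f z‖ ≤ C) :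
    EX (xt S X) f = EX S fun z => Ex X.G (fun u => X.g (jn z u)) fun u => f (Sum.elim z u) :=
  Ex_blocks h.pd hX.pd (tri (ok_xt h hX)) (fun z u => by rw [toR_elim]; rfl) hf

theorem Ex_fib (hX : X.Ok S) (y : ι → ℝ) {f : (E → ℤ) → ℂ} {C : ℝ} (hf : ∀ z, ‖f z‖ ≤ C) :
    ‖Ex X.G (fun u => X.g (Sum.elim y (toR u))) f‖ ≤ C * th X.G⁻¹ 0 := by
  have t : Tri X.tr fun u => X.g (Sum.elim y (toR u)) := fun e u u' hu =>
    hX.loc e _ _ (fun _ _ => rfl) fun e' _ h2 => congrArg Int.cast (hu e' h2)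
  refine (norm_Ex_le t hX.pd hf).trans ?_
  rw [← ms_zero hX.pd]
  exact mul_le_mul_of_nonneg_left (P057SH.ms_tri_le hX.pd
    (fun l l' e => by_contra fun h0 => e (hX.ort l l' h0).2) t) ((norm_nonneg _).trans (hf 0))

/-- the map extended by the identity on the extra coordinates -/
def up (P : (ι' → ℝ) → ι → ℝ) (x : ι' ⊕ E → ℝ) : ι ⊕ E → ℝ :=
  Sum.elim (P (x ∘ Sum.inl)) (x ∘ Sum.inr)

/-- extra coordinates pulled back along a shifted map -/
def pull (X : Xt V ι E) (P : (ι' → ℝ) → ι → ℝ) (r : ι → ℝ) : Xt V ι' E :=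
  ⟨X.fc, X.tr, X.G, fun x => X.g (up P x + Sum.elim r 0)⟩

theorem Fmp.up (h : Fmp S' S P) (r : ι → ℝ) : Fmp (xt S' (pull X P r)) (xt S X) (up P) :=
  fun a => by
    rcases a with i | e
    · exact fmp_inl.fm (h i)
    · exact (mor_id (xt S' (pull X P r))).fm (Sum.inr e)

theorem ok_pull (hX : X.Ok S) (h : Fmp S' S P) (r : ι → ℝ) : (pull X P r).Ok S' :=
  ⟨hX.ne, hX.pd, hX.ort, fun e x x' h1 h2 => hX.loc e _ _ (fun i hi => congrArg (· + r i)
    ((h i).on _ _ fun j hj => h1 j ((mem_fce.1 hj).trans hi)))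
    fun e' a b => congrArg (· + 0) (h2 e' a b), fun v e => (h.up r).aff (hX.aff v e) _⟩

theorem cen_pull (hS : S'.Cen) (hc : (xt S X).Cen) (h : Fmp S' S P) :
    (xt S' (pull X P 0)).Cen := by
  refine ⟨fun a => ?_, fun v a hv y => ?_⟩
  · rcases a with i | e
    exacts [hS.ne i, hc.ne (Sum.inr e)]
  · rcases a with i | e
    · rw [show (xt S' (pull X P 0)).p _ (Sum.inl i) = S'.p (_ ∘ Sum.inl) i from rfl, fmp_inl.kill]
      exact hS.zero v i hv _
    · change X.g (up P _ + Sum.elim (0 : ι → ℝ) (0 : E → ℝ)) e = 0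
      rw [Sum.elim_zero_zero, add_zero, (h.up 0).kill]
      exact hc.zero v (Sum.inr e) hv _

end

end Vale.Agent.P057CO
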