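import Vale.Agent.P057CO.Core
import Vale.Agent.P057SY.Alt

/-!
Deleting extra coordinates on proper faces, subsystems, dilations, the bulk.
-/

set_option linter.all false

open Matrix Finset
open scoped Real
open Vale.Agent.P267.H775 Vale.Agent.P057G Vale.Agent.P057MA Vale.Agent.P057SY Vale.Agent.P057PC
open Vale.Agent.P057T1 (gsc qq_gsc)

namespace Vale.Agent.P057CO

noncomputable section

variable {V ι ι' K K₁ : Type} [DecidableEq V] [Fintype V] [Fintype ι] [DecidableEq ι] [Fintype ι']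
  [DecidableEq ι'] [Fintype K] [DecidableEq K] [Fintype K₁] [DecidableEq K₁] {S : MS V ι}
  {T : MS V ι'}

theorem bias_out (h : S.Ok) (hc : S.Cen) {q D : Finset ι} (hD : Sat S.G D)
    (hd : ∀ i ∈ q, ∀ j ∈ q ∩ D, ¬ S.Dep i j) {u : V} (hu : ∀ i ∈ q ∩ D, u ∉ S.fc i)
    {θ : (ι → ℝ) → ℝ} (hθ : Lin (S.st u) θ) (ho : On (univ \ D) θ) :
    S.bias q θ / vl S.G q ≤ cx S.G (q ∩ D) * (S.bias (q \ D) θ / vl S.G (q \ D)) := by
  have h1 := Complex.hasSum_re (h.hasSum_top hD hd (f := fun z => ee (θ (toR z))) (C := 1)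
    (fun z => (norm_ee _).le) fun x y => congrArg ee (ho _ _ fun i hi => by
      rw [toR_apply, toR_apply, put_neg _ _ fun e => (Finset.mem_sdiff.1 hi).2 (mem_inter.1 e).2]))
  simp only [Complex.re_ofReal_mul, ← ee_add] at h1
  rw [h.re_bias] at h1
  have h2 : ∀ k : ↥(q ∩ D) → ℤ, (∑' y, (S.wt (q \ D) y : ℂ) *
      ee (θ (toR y) + ∑ i : ↥(q ∩ D), k i * S.p (toR y) i)).re ≤ S.bias (q \ D) θ := fun k => by
    have e := h.norm_le_bias_ln1 (q \ D) u (θ := fun z => θ z + ∑ i : ↥(q ∩ D), k i * S.p z i)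
      (aff_add hθ.aff (aff_sum univ fun i _ => aff_smul (aff_p h u i) _)) (f := fun _ => 1)
      (fun _ => norm_one.le) fun _ _ => rfl
    simp only [one_mul, ln1_cen h hc, hθ.zero, fun (i : ↥(q ∩ D)) x y => p_indep h (hu i i.2) x y,
      zero_add, add_sub_cancel_right] at e
    exact (Complex.re_le_norm _).trans e
  have h3 := hasSum_le (fun k => mul_le_mul_of_nonneg_left (h2 k)
    (mul_pos (vl_pos h.pd _) (gs_pos _ _)).le) h1
    (((hasSum_cx h (q ∩ D)).mul_left (vl S.G (q ∩ D))).mul_right (S.bias (q \ D) θ))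
  have p1 := vl_pos h.pd (q ∩ D)
  have p2 := vl_pos h.pd (q \ D)
  rw [vl_split h.pd hD q, div_le_iff₀ (mul_pos p1 p2)]
  refine h3.trans_eq ?_
  field_simp

/-- deleting labels on proper faces -/
theorem bias_del_le (h : S.Ok) (hc : S.Cen) {q' : Finset ι} (hq' : Sat S.G q') {θ : (ι → ℝ) → ℝ}
    (hθ : ∀ v, Lin (S.st v) θ) (ho : On q' θ) (h0 : 0 ≤ S.bias q' θ) :
    ∀ (q : Finset ι), Sat S.G q → q' ⊆ q → (∀ i ∈ q', ∀ j ∈ q, S.Dep i j → j ∈ q') →
      (∀ i ∈ q, i ∉ q' → S.fc i ≠ univ) →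
      S.bias q θ / vl S.G q ≤ cx S.G (q \ q') * (S.bias q' θ / vl S.G q') := by
  intro q
  induction q using Finset.strongInduction with
  | H q ih =>
    intro hq hsub hcl hp
    rcases (q \ q').eq_empty_or_nonempty with he | hne
    · rw [he, cx_empty, one_mul, Subset.antisymm hsub (sdiff_eq_empty_iff_subset.1 he)]
    obtain ⟨j0, hj0, hmax⟩ := exists_max_image (q \ q') S.lv hne
    set D := (q \ q') ∩ univ.filter fun j => S.fc j = S.fc j0 ∧ S.lv j = S.lv j0 with hDdef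
    have hmem : ∀ j, j ∈ D ↔ (j ∈ q ∧ j ∉ q') ∧ S.fc j = S.fc j0 ∧ S.lv j = S.lv j0 := by
      intro j; simp [hDdef]
    have hD : Sat S.G D := (hq.sdiff h.pd.1 hq').inter (h.sat fun i j e1 e2 hi => by
      simp only [mem_filter, mem_univ, true_and] at hi ⊢
      exact ⟨e1 ▸ hi.1, e2 ▸ hi.2⟩)
    obtain ⟨u, hu⟩ : ∃ u, u ∉ S.fc j0 := by
      simpa [eq_univ_iff_forall] using hp j0 (Finset.mem_sdiff.1 hj0).1 (Finset.mem_sdiff.1 hj0).2
    have hj0D : j0 ∈ D := (hmem j0).2 ⟨Finset.mem_sdiff.1 hj0, rfl, rfl⟩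
    have e1 : (q \ q') ∩ D = q ∩ D := by
      ext j; simp only [mem_inter, Finset.mem_sdiff, hmem]; tauto
    rw [cx_split h (hq.sdiff h.pd.1 hq') hD, e1, sdiff_right_comm, mul_assoc]
    refine (bias_out h hc hD ?_ (u := u) ?_ (hθ u) (ho.mono fun i hi =>
      Finset.mem_sdiff.2 ⟨mem_univ _, fun e => ((hmem i).1 e).1.2 hi⟩)).trans
      (mul_le_mul_of_nonneg_left (ih (q \ D) ?_ (hq.sdiff h.pd.1 hD) ?_ ?_ ?_) (th_nonneg _ _))
    · intro i hi j hj hdep
      have hj' := (hmem j).1 (mem_inter.1 hj).2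
      by_cases hi' : i ∈ q'
      · exact hj'.1.2 (hcl i hi' j hj'.1.1 hdep)
      · have := hmax i (Finset.mem_sdiff.2 ⟨hi, hi'⟩)
        have := hdep.2
        omega
    · intro i hi
      rw [((hmem i).1 (mem_inter.1 hi).2).2.1]; exact hu
    · exact sdiff_ssubset (fun j hj => ((hmem j).1 hj).1.1) ⟨j0, hj0D⟩
    · exact fun i hi => Finset.mem_sdiff.2 ⟨hsub hi, fun hiD => ((hmem i).1 hiD).1.2 hi⟩
    · exact fun i hi j hj => hcl i hi j (Finset.mem_sdiff.1 hj).1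
    · exact fun i hi => hp i (Finset.mem_sdiff.1 hi).1

/-! ### subsystems of extra coordinates -/

/-- `X₁` is a part of `X` -/
structure Pt (X : Xt V ι K) (X₁ : Xt V ι K₁) (i : K₁ → K) : Prop where
  inj : Function.Injective i
  fc : ∀ k, X.fc (i k) = X₁.fc k
  G : ∀ k k', X.G (i k) (i k') = X₁.G k k'
  ort : ∀ k k', k' ∉ Set.range i → X.G (i k) k' = 0
  g : ∀ x k, X.g x (i k) = X₁.g (x ∘ Sum.map id i) k

namespace Pt

variable {X : Xt V ι K} {X₁ : Xt V ι K₁} {i : K₁ → K} (h : Pt X X₁ i)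
include h

theorem mi : Function.Injective (Sum.map id i : ι ⊕ K₁ → ι ⊕ K) :=
  Sum.map_injective.2 ⟨Function.injective_id, h.inj⟩

theorem mf (S : MS V ι) (a : ι ⊕ K₁) : (xt S X).fc (Sum.map id i a) = (xt S X₁).fc a := by
  rcases a with a | a
  exacts [rfl, h.fc a]

theorem mG (S : MS V ι) (a b : ι ⊕ K₁) :
    (xt S X).G (Sum.map id i a) (Sum.map id i b) = (xt S X₁).G a b := by
  rcases a with a | a <;> rcases b with b | b
  exacts [rfl, rfl, rfl, h.G a b]

theorem mp (S : MS V ι) (z : ι ⊕ K → ℝ) (a : ι ⊕ K₁) :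
    (xt S X).p z (Sum.map id i a) = (xt S X₁).p (z ∘ Sum.map id i) a := by
  rcases a with a | a
  exacts [rfl, h.g z a]

theorem sat (S : MS V ι) : Sat (xt S X).G (univ.image (Sum.map id i)) := by
  intro a b ha hb
  obtain ⟨a, -, rfl⟩ := mem_image.1 ha
  rcases b with b | b
  · exact absurd (mem_image_of_mem _ (mem_univ (Sum.inl b))) hb
  rcases a with a | a
  · rfl
  · exact h.ort a b fun ⟨k, e⟩ => hb (e ▸ mem_image_of_mem _ (mem_univ (Sum.inr k)))

theorem ln2_eq (S : MS V ι) (z : ι ⊕ K → ℝ) :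
    ln2 (xt S X) (univ.image (Sum.map id i)) z = ln2 (xt S X₁) univ (z ∘ Sum.map id i) :=
  ln2_image h.mi (fun _ _ _ _ => h.mG S _ _) (fun _ _ _ => h.mp S _ _) z

theorem fmp (S : MS V ι) : Fmp (xt S X) (xt S X₁) fun z => z ∘ Sum.map id i := fun a => by
  have := (mor_id (xt S X)).fm (Sum.map id i a)
  rwa [h.mf] at this

theorem mor (hS : S.Ok) (hX : X.Ok S) : Mor (xt S X) (xt S X₁) fun z => z ∘ Sum.map id i :=
  ⟨h.fmp S, fun a => IntV.coord _, fun z hz => by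
    rw [← h.ln2_eq]
    exact (qq_msk_le (ok_xt hS hX).pd (h.sat S) (subset_univ _) _).trans hz⟩

omit h in
/-- extension by zero -/
def ez (i : K₁ → K) (z : ι ⊕ K₁ → ℝ) : ι ⊕ K → ℝ := Function.extend (Sum.map id i) z 0

theorem ez_comp (z : ι ⊕ K₁ → ℝ) : ez i z ∘ Sum.map id i = z := Function.extend_comp h.mi z 0

theorem ez_fm (S : MS V ι) (a : ι ⊕ K) :
    Fm (xt S X₁) (fce (xt S X₁) ((xt S X).fc a)) ((xt S X).fc a) (fun z => ez i z a) ∧
      IntV fun z => ez i z a := by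
  by_cases e : ∃ b, Sum.map id i b = a
  · obtain ⟨b, rfl⟩ := e
    simp only [ez, h.mi.extend_apply, h.mf]
    exact ⟨(mor_id (xt S X₁)).fm b, IntV.coord b⟩
  · simp only [ez, Function.extend_apply' _ _ _ e]
    exact ⟨Fm.zero _ _ _, IntV.zero⟩

theorem cen (hc : (xt S X).Cen) : (xt S X₁).Cen := by
  refine ⟨fun a => h.mf S a ▸ hc.ne _, fun v a hv y => ?_⟩
  have := hc.zero v (Sum.map id i a) (h.mf S a ▸ hv) (ez i y)
  rwa [h.mp, show mix _ 0 _ ∘ Sum.map id i = _ from (h.fmp S).kill v _, h.ez_comp] at this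

theorem ez_on {f : (ι ⊕ K → ℝ) → ℝ} (hf : On (univ.image (Sum.map id i)) f) (z : ι ⊕ K → ℝ) :
    f (ez i (z ∘ Sum.map id i)) = f z := hf _ _ fun a ha => by
  obtain ⟨a, -, rfl⟩ := mem_image.1 ha
  exact congrFun (h.ez_comp _) a

theorem mor_ez (hS : S.Ok) (hX : X.Ok S) (hq : Cls (xt S X) (univ.image (Sum.map id i)))
    {P : (ι ⊕ K → ℝ) → ι' → ℝ} (hT : T.Ok) (hP : Mor (xt S X) T P)
    (ho : ∀ j, On (univ.image (Sum.map id i)) fun z => P z j) :
    Mor (xt S X₁) T fun z => P (ez i z) := by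
  refine ⟨fun j => Fmp.fm (fun a => (h.ez_fm S a).1) (hP.fm j), fun j z => ?_, fun z hz => ?_⟩
  · choose w hw using fun a => (h.ez_fm S a).2 z
    beta_reduce
    rw [show ez i (toR z) = toR w from funext hw]
    exact hP.int j w
  · refine (le_abs_self _).trans (Nle.down (ok_xt hS hX) hq (subset_univ _)
      (f := fun y => ln2 T univ (P y)) (fun y y' e => congrArg _ (funext fun j => ho j y y' e))
      (fun y hy => (abs_of_nonneg (ln2_nonneg hT _)).trans_le (hP.ball y hy)) _ ?_)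
    rwa [h.ln2_eq, h.ez_comp]

theorem nb_le [Nonempty V] (hS : S.Ok) (hX : X.Ok S) (hc : (xt S X).Cen)
    (hq : Cls (xt S X) (univ.image (Sum.map id i))) (hp : ∀ k, X.fc k ≠ univ)
    {θ : (ι ⊕ K₁ → ℝ) → ℝ} (hθ : ∀ v, Lin ((xt S X₁).st v) θ) :
    nb (xt S X) (fun z => θ (z ∘ Sum.map id i)) ≤ th X.G⁻¹ 0 * nb (xt S X₁) θ := by
  have hA := ok_xt hS hX
  have hl := fun v => (h.fmp S).lin (hθ v)
  have h0 := hA.bias_nonneg hc (univ.image (Sum.map id i)) (Classical.arbitrary V) (hl _)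
  have su : Sat (xt S X).G univ := fun _ _ _ e => absurd (mem_univ _) e
  have h1 := bias_del_le hA hc (h.sat S) hl (fun z z' e => congrArg θ (funext fun a =>
    e _ (mem_image_of_mem _ (mem_univ a)))) h0 univ su (subset_univ _)
    (fun a ha b _ => hq.dep a ha b) fun a _ ha => by
      rcases a with a | a
      exacts [absurd (mem_image_of_mem _ (mem_univ (Sum.inl a))) ha, hp a]
  have h2 : cx (xt S X).G (univ \ univ.image (Sum.map id i)) ≤ th X.G⁻¹ 0 := by
    refine (cx_mono hA (q := univ.image Sum.inr) (fun a b ha hb => ?_)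
      (su.sdiff hA.pd.1 (h.sat S)) fun a ha => ?_).trans_eq
      (cx_top (S := S) (fn := X.fc) (pn := fun _ => 0))
    · obtain ⟨a, -, rfl⟩ := mem_image.1 ha
      rcases b with b | b
      exacts [rfl, absurd (mem_image_of_mem _ (mem_univ b)) hb]
    · rcases a with a | a
      exacts [absurd (mem_image_of_mem _ (mem_univ (Sum.inl a))) (Finset.mem_sdiff.1 ha).2,
        mem_image_of_mem _ (mem_univ a)]
  refine h1.trans ((mul_le_mul_of_nonneg_right h2 (div_nonneg h0 (vl_pos hA.pd _).le)).trans_eq ?_)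
  rw [nb, bias_image h.mi (fun _ _ _ _ => h.mG S _ _) fun _ _ _ => h.mp S _ _,
    vl_image h.mi fun _ _ _ _ => h.mG S _ _]

end Pt

/-- the extra coordinates that avoid `t` -/
def av (X : Xt V ι K) (t : V) : Xt V ι {k // t ∉ X.fc k} :=
  ⟨fun k => X.fc k, fun k => X.tr k, bk X.G _, fun x k => X.g (Pt.ez Subtype.val x) k⟩

variable {X : Xt V ι K} {t : V}

theorem ez_inl {i : K₁ → K} (hi : Function.Injective i) (z : ι ⊕ K₁ → ℝ) (a : ι ⊕ K₁) :
    Pt.ez i z (Sum.map id i a) = z a :=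
  (Sum.map_injective.2 ⟨Function.injective_id, hi⟩).extend_apply _ _ _

theorem ort_av (hX : X.Ok S) : P057PC.Ort X.G fun k => t ∉ X.fc k := fun i j hi hj =>
  by_contra fun e => hj fun b => hi ((hX.ort i j e).1.symm.subset b)

theorem pt_av (hX : X.Ok S) : Pt X (av X t) Subtype.val :=
  ⟨Subtype.val_injective, fun _ => rfl, fun _ _ => rfl,
    fun k k' e => ort_av hX _ _ k.2 fun e' => e ⟨⟨k', e'⟩, rfl⟩, fun x k => hX.loc _ _ _
      (fun a _ => (ez_inl Subtype.val_injective (x ∘ Sum.map id Subtype.val) (Sum.inl a)).symm)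
      fun e a _ => (ez_inl Subtype.val_injective (x ∘ Sum.map id Subtype.val)
        (Sum.inr ⟨e, fun b => k.2 (a b)⟩)).symm⟩

theorem ok_av (hX : X.Ok S) : (av X t).Ok S := by
  refine ⟨fun k => hX.ne k, posDef_bk hX.pd _, fun k k' e => hX.ort k k' e,
    fun k x x' h1 h2 => hX.loc _ _ _ (fun a ha => ?_) fun e a b => ?_,
    fun v k => Fmp.aff0 (fun a => ((pt_av hX).ez_fm S a).1) (hX.aff v k)⟩
  · exact (ez_inl Subtype.val_injective x (Sum.inl a)).trans ((h1 a ha).trans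
      (ez_inl Subtype.val_injective x' (Sum.inl a)).symm)
  · exact (ez_inl Subtype.val_injective x (Sum.inr ⟨e, fun b => k.2 (a b)⟩)).trans
      ((h2 ⟨e, fun b => k.2 (a b)⟩ a b).trans
        (ez_inl Subtype.val_injective x' (Sum.inr ⟨e, fun b => k.2 (a b)⟩)).symm)

theorem mem_av {a : ι ⊕ K} :
    a ∈ univ.image (Sum.map id (Subtype.val : {k // t ∉ X.fc k} → K)) ↔
      ∀ k, a = Sum.inr k → t ∉ X.fc k := by
  rcases a with a | a
  · exact iff_of_true (mem_image_of_mem _ (mem_univ (Sum.inl a))) fun _ e => nomatch e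
  · simp

theorem cls_av : Cls (xt S X) (univ.image (Sum.map id (Subtype.val : {k // t ∉ X.fc k} → K))) := by
  have key : ∀ a b, (xt S X).fc b ⊆ (xt S X).fc a → (xt S X).lv b ≤ (xt S X).lv a →
      a ∈ univ.image (Sum.map id (Subtype.val : {k // t ∉ X.fc k} → K)) →
      b ∈ univ.image (Sum.map id (Subtype.val : {k // t ∉ X.fc k} → K)) := by
    intro a b e1 e2 ha
    refine mem_av.2 ?_
    rintro k rfl
    rcases a with a | a
    · exact absurd ((lv_lt (S := S) a).trans_le (Nat.le_add_right _ _)) (not_lt.2 e2)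
    · exact fun e => mem_av.1 ha a rfl (e1 e)
  exact ⟨fun a b e1 e2 => key a b e1.symm.subset e2.ge, fun a ha b e => key a b e.1 e.2.le ha⟩

theorem sz_av (hX : X.Ok S) {τ : ℕ} {Y : ℝ} (hs : X.Sz τ Y) : (av X t).Sz τ Y :=
  ⟨fun k => hs.tr k, le_trans (Nat.cast_le.2 (Fintype.card_subtype_le _)) hs.card,
    sep_bk hs.sep _, (th_bk hX.pd (ort_av hX)).trans hs.cx⟩

/-! ### dilations -/

/-- the dilated extra coordinates -/
def dx (X : Xt V ι K) (W : ℝ) : Xt V ι K :=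
  ⟨X.fc, X.tr, gsc X.G fun e => W ^ (X.fc e ∩ univ).card, X.g⟩

theorem dil_xt (W : ℝ) : dil (xt S X) univ W = xt (dil S univ W) (dx X W) := by
  unfold dil MS.gram xt dx
  congr 1
  ext a b
  rcases a with a | a <;> rcases b with b | b <;> simp [gsc]

theorem ok_dx (hX : X.Ok S) {W : ℝ} (hW : 1 ≤ W) : (dx X W).Ok (dil S univ W) :=
  ⟨hX.ne, pd_gsc hX.pd (fun i j e => by rw [(hX.ort i j e).1]) fun _ => one_le_pow₀ hW,
    fun i j e => hX.ort i j fun h0 => e (by simp [dx, gsc, h0]), hX.loc, hX.aff⟩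

theorem sz_dx (hX : X.Ok S) {τ : ℕ} {Y a b U W : ℝ} (hs : X.Sz τ Y) (hW : 1 ≤ W)
    (h1 : W ≤ Real.exp a) (hV : (Fintype.card V : ℝ) ≤ b) (hK : (Fintype.card K : ℝ) ≤ b)
    (h2 : b * (b * a) + Y ≤ U) : (dx X W).Sz τ U := by
  have g1 : ∀ i j, X.G i j ≠ 0 → W ^ (X.fc i ∩ univ).card = W ^ (X.fc j ∩ univ).card :=
    fun i j e => by rw [(hX.ort i j e).1]
  have g2 : ∀ i, 1 ≤ W ^ (X.fc i ∩ univ).card := fun _ => one_le_pow₀ hW
  have a0 : 0 ≤ a := Real.one_le_exp_iff.1 (hW.trans h1)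
  have b0 : 0 ≤ b := le_trans (Nat.cast_nonneg _) hV
  refine ⟨hs.tr, hs.card.trans (by nlinarith [mul_nonneg b0 (mul_nonneg b0 a0)]),
    fun k hk => (hs.sep k hk).trans (le_gsc hX.pd g1 g2 _), (th_gsc hX.pd g1 g2
      (one_le_pow₀ (n := Fintype.card V) hW) fun _ => pow_le_pow_right₀ hW (card_le_univ _)).trans
      ((mul_le_exp (th_nonneg _ _) (pow_le_exp (by positivity) (pow_le_exp (by positivity) h1 a0 hV
        le_rfl) (by positivity) hK le_rfl) hs.cx).trans (Real.exp_le_exp.2 h2))⟩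

theorem mor_scl (h : S.Ok) (hc : S.Cen) {r : ℕ} {s : ℝ} (hr : (r : ℝ) ≤ s) (hs : 0 < s) :
    Mor (dil S univ s) S (scl S univ r) := by
  refine ⟨fun i => ?_, fun i z => ⟨r ^ (S.fc i ∩ univ).card * z i, by simp [scl]⟩, fun z hz => ?_⟩
  · have := fmp_mul (S := S) (fun i => (r : ℝ) ^ (S.fc i ∩ univ).card) i
    exact ⟨this.on, this.lin⟩
  · rw [ln2_dil h hc] at hz
    have h1 := ln2_small h hc (t := r / s) (by positivity) ((div_le_one hs).2 hr) (scl S univ s z)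
    rw [scl_scl, div_mul_cancel₀ _ hs.ne'] at h1
    exact h1.trans (mul_le_one₀ (pow_le_one₀ (by positivity) ((div_le_one hs).2 hr))
      (ln2_nonneg h _) hz)

theorem mor_dil (h : S.Ok) (hc : S.Cen) {P : (ι → ℝ) → ι' → ℝ} (hP : Mor S T P) {s : ℝ}
    (hs : 1 ≤ s) : Mor (dil S univ s) T P := by
  simpa only [Nat.cast_one, scl_one] using
    hP.comp (mor_scl h hc (r := 1) (by exact_mod_cast hs) (by linarith))

theorem mor_narrow {P : (ι → ℝ) → ι' → ℝ} (hP : Mor S T P) (h : S.Ok) (hc : S.Cen) (h' : T.Ok)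
    (hc' : T.Cen) {R W : ℝ} (hR : 1 ≤ R) (hW : R ≤ W) {y : ι → ℝ}
    (hy : ln2 (dil S univ W) univ y ≤ R ^ 2) : ln2 T univ (P y) ≤ (R / W) ^ 2 := by
  have R0 : 0 < R := by linarith
  have W0 : 0 < W := by linarith
  rw [ln2_dil h hc] at hy
  have h1 := ln2_small h hc (t := R⁻¹) (by positivity) (inv_le_one_of_one_le₀ hR) (scl S univ W y)
  have h2 := hP.ball _ (h1.trans (by rw [inv_pow, inv_mul_le_iff₀ (by positivity)]; linarith))
  have h3 := ln2_small h' hc' (t := R / W) (by positivity) ((div_le_one W0).2 hW)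
    (P (scl S univ R⁻¹ (scl S univ W y)))
  rw [← Fmp.scl hP.fm, scl_scl, scl_scl, show R / W * R⁻¹ * W = 1 by field_simp, scl_one] at h3
  exact h3.trans (mul_le_of_le_one_right (by positivity) h2)

/-- a phase that is nearly an integer on the bulk is biased -/
theorem nb_bulk (h : S.Ok) (hc : S.Cen) {Φ : (ι → ℝ) → ℝ} {r : ℝ}
    (hΦ : ∀ y : ι → ℤ, ln2 S univ (toR y) ≤ r → ∃ k : ℤ, |Φ (toR y) - k| ≤ 1 / 8)
    (ht : Real.exp (-(π * r / 2)) * √2 ^ Fintype.card ι ≤ 1 / 6) : 1 / 4 ≤ nb S Φ := by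
  have s1 := h.summable_re univ (f := fun z => if r ≤ ln2 S univ (toR z) then 1 else 0) (C := 1)
    fun z => by split_ifs <;> simp
  have s2 := h.summable_re univ (f := fun z => Real.cos (2 * π * Φ (toR z))) (C := 1)
    fun z => Real.abs_cos_le_one _
  have h1 := hasSum_le (fun z => ?_) (((h.hasSum_wt univ).mul_left (1 / 2)).sub
    (s1.hasSum.mul_left (3 / 2))) s2.hasSum
  · have h2 := tail_cen h hc univ r
    have h3 := h.one_le_mass hc (q := univ) fun _ _ _ e => absurd (mem_univ _) e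
    have h4 := vl_pos h.pd univ
    have h5 := mul_le_mul_of_nonneg_right ht (mul_nonneg (zero_le_one.trans h3) h4.le)
    rw [nb, le_div_iff₀ h4]
    rw [card_univ] at h2
    refine le_trans ?_ h1
    nlinarith
  · have w0 := MS.wt_nonneg (S := S) univ z
    split_ifs with e
    · nlinarith [Real.neg_one_le_cos (2 * π * Φ (toR z))]
    · obtain ⟨k, hk⟩ := hΦ z (not_le.1 e).le
      have c1 := Real.one_sub_sq_div_two_le_cos (x := 2 * π * (Φ (toR z) - k))
      rw [show 2 * π * (Φ (toR z) - k) = 2 * π * Φ (toR z) - k * (2 * π) by ring,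
        Real.cos_sub_int_mul_two_pi] at c1
      have c2 : (Φ (toR z) - k) ^ 2 ≤ (1 / 8) ^ 2 := by
        rw [← sq_abs]; exact pow_le_pow_left₀ (abs_nonneg _) hk 2
      have c3 : π ^ 2 ≤ 4 ^ 2 := pow_le_pow_left₀ Real.pi_pos.le Real.pi_le_four 2
      have c4 := mul_le_mul c3 c2 (sq_nonneg _) (by norm_num)
      have : 1 / 2 ≤ Real.cos (2 * π * Φ (toR z)) := by nlinarith
      nlinarith

end

end Vale.Agent.P057CO
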