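import Vale.Agent.P057CO.Xt

/-!
Transfer of the bias through the regularisation of one tier.
-/

set_option linter.all false

open Matrix Finset
open scoped Real
open Vale.Agent.P267.H775 Vale.Agent.P057G Vale.Agent.P057MA Vale.Agent.P057SY Vale.Agent.P057PC

namespace Vale.Agent.P057CO

noncomputable section

variable {V ι κ κ' E : Type} [DecidableEq V] [Fintype V] [Fintype ι] [DecidableEq ι] [Fintype κ]
  [DecidableEq κ] [Fintype κ'] [DecidableEq κ'] [Fintype E] [DecidableEq E] {S : MS V ι}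
  {fn : κ → Finset V} {G : Matrix κ κ ℝ} {pn : (ι → ℝ) → κ → ℝ}

theorem fmp_top : Fmp (top S fn G pn) S fun z => z ∘ Sum.inl :=
  fun i => (mor_id (top S fn G pn)).fm (Sum.inl i)

theorem EX_top (h : S.Ok) (ht : TopOk S fn G pn) {f : (ι ⊕ κ → ℤ) → ℂ} {C : ℝ}
    (hf : ∀ z, ‖f z‖ ≤ C) : EX (top S fn G pn) f =
      EX S fun z => Ex G (fun _ => pn (toR z)) fun u => f (Sum.elim z u) :=
  Ex_blocks h.pd ht.pd (tri (ok_top h ht)) (fun z u => rfl) hf

theorem nb_top (h : S.Ok) (hc : S.Cen) (ht : TopOk S fn G pn) {θ : (ι → ℝ) → ℝ}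
    (hθ : ∀ v, Lin (S.st v) θ) : nb S θ ≤ nb (top S fn G pn) fun z => θ (z ∘ Sum.inl) := by
  have h' := ok_top h ht
  have c1 := cls_low (top S fn G pn) (univ.sup S.lv + 1)
  rw [low_top] at c1
  have := bias_mono h' (cen_top h hc ht) (c1.sat h') (θ := fun z => θ (z ∘ Sum.inl))
    (fun v => fmp_top.lin (hθ v)) (fun z z' hz => congrArg θ (funext fun i =>
      hz _ (mem_image_of_mem _ (mem_univ i)))) univ ((cls_univ _).sat h') (subset_univ _)
    fun i hi j _ hd => c1.dep i hi j hd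
  rwa [bias_image (S := S) Sum.inl_injective (fun _ _ _ _ => rfl) fun _ _ _ => rfl,
    vl_image (G := S.G) Sum.inl_injective fun _ _ _ _ => rfl] at this

theorem norm_EX_tail (h : S.Ok) (hc : S.Cen) {f : (ι → ℤ) → ℂ} {a b r : ℝ} (hb : 0 ≤ b)
    (hf : ∀ z, ‖f z‖ ≤ a + b * if r ≤ ln2 S univ (toR z) then 1 else 0) :
    ‖EX S f‖ ≤ (a + b * (Real.exp (-(π * r / 2)) * √2 ^ Fintype.card ι)) * S.mass univ := by
  have p0 := vl_pos h.pd (univ : Finset ι)
  have h1 := (h.summable_re univ (f := fun z => if r ≤ ln2 S univ (toR z) then 1 else 0) (C := 1)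
    fun z => by split_ifs <;> simp).hasSum
  have h2 := ((h.hasSum_wt univ).mul_left a).add (h1.mul_left b)
  rw [EX_eq, norm_div, Complex.norm_real, Real.norm_of_nonneg p0.le, div_le_iff₀ p0]
  refine (tsum_of_norm_bounded h2 fun z => ?_).trans ?_
  · rw [norm_mul, Complex.norm_real, Real.norm_of_nonneg (MS.wt_nonneg _ _)]
    linarith [mul_le_mul_of_nonneg_left (hf z) (MS.wt_nonneg (S := S) univ z)]
  · have := mul_le_mul_of_nonneg_left (tail_cen h hc univ r) hb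
    rw [card_univ] at this
    linarith

theorem Ex_const {L : Type} [Fintype L] [DecidableEq L] (A : Matrix L L ℝ) (p : (L → ℤ) → L → ℝ)
    (c : ℂ) : Ex A p (fun _ => c) = ms A p * c := by
  have := Ex_mul_const A p (fun _ => 1) c
  simp only [mul_one] at this
  rw [this, Ex_one, mul_comm]

/-- the dilation on the old labels, the identity on the new ones -/
def dq (S : MS V ι) (d : ℝ) (y : ι ⊕ κ → ℝ) : ι ⊕ κ → ℝ :=
  Sum.elim (scl S univ d (y ∘ Sum.inl)) (y ∘ Sum.inr)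

theorem topOk_scl (ht : TopOk S fn G pn) (d lam : ℝ) :
    TopOk (dil S univ lam) fn G fun z => pn (scl S univ d z) :=
  ⟨ht.pd, ht.ort, ht.ne, fun j => by
    have := (ht.fm j).smul (d ^ (fn j ∩ univ).card)
    simp only [← (ht.fm j).scl] at this
    exact ⟨this.on, this.lin⟩⟩

theorem fmp_dq (d lam : ℝ) (p' : (ι → ℝ) → κ → ℝ) :
    Fmp (top (dil S univ lam) fn G p') (top S fn G pn) (dq S d) := fun a => by
  rcases a with i | j
  · exact ((mor_id (top (dil S univ lam) fn G p')).fm (Sum.inl i)).smul _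
  · exact (mor_id (top (dil S univ lam) fn G p')).fm (Sum.inr j)

variable {X : Xt V (ι ⊕ κ) E} {d : ℕ} {lam : ℝ} {ψ : ((ι ⊕ κ) ⊕ E → ℝ) → ℝ} [Nonempty V]

theorem tf_dil (h : S.Ok) (hc : S.Cen) (ht : TopOk S fn G pn) (hX : X.Ok (top S fn G pn))
    (hXc : (xt (top S fn G pn) X).Cen) (d0 : 0 < d) (dl : (d : ℝ) ≤ lam)
    (hψ : ∀ v, Lin ((xt (top S fn G pn) X).st v) ψ) :
    nb (xt (top S fn G pn) X) ψ ≤
      nb (xt (top (dil S univ lam) fn G fun z => pn (scl S univ d z)) (pull X (dq S d) 0))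
        fun z => ψ (up (dq S d) z) := by
  have d1 : (1 : ℝ) ≤ d := by exact_mod_cast d0
  have hA := ok_xt (ok_top h ht) hX
  have hq := fmp_dq (S := S) (fn := fn) (G := G) (pn := pn) d lam fun z => pn (scl S univ d z)
  have hB := ok_xt (ok_top (ok_dil h univ (d1.trans dl)) (topOk_scl ht d lam)) (ok_pull hX hq 0)
  set B := xt (top (dil S univ lam) fn G fun z => pn (scl S univ d z)) (pull X (dq S d) 0)
  let D : (ι ⊕ κ) ⊕ E → ℤ := Sum.elim (Sum.elim (fun i => (d : ℤ) ^ (S.fc i ∩ univ).card) 1) 1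
  have hD : ∀ i, D i ≠ 0 := fun a => by
    rcases a with (i | j) | e
    · exact pow_ne_zero _ (by exact_mod_cast d0.ne')
    all_goals exact one_ne_zero
  have e1 : ∀ x, toR D * x = up (dq S d) x := fun x => by
    funext a
    rcases a with (i | j) | e <;> simp [D, up, dq, scl]
  have e2 : cs (xt (top S fn G pn) X) D 0 =
      B.gram (P057ST.dil D (xt (top S fn G pn) X).G) := by
    simp only [cs, MS.gram, e1, add_zero, Pi.zero_apply, sub_zero]
    congr 1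
    funext z a
    rcases a with (i | j) | e
    · change S.p (scl S univ d _) i / _ = S.p _ i
      rw [p_scl h hc, scl]
      simp only [D, Sum.elim_inl]
      push_cast
      exact mul_div_cancel_left₀ _ (by positivity)
    · exact (congrArg (_ / ·) Int.cast_one).trans (div_one _)
    · refine ((congrArg (_ / ·) Int.cast_one).trans (div_one _)).trans ?_
      change _ = X.g (_ + Sum.elim (0 : ι ⊕ κ → ℝ) (0 : E → ℝ)) e
      rw [Sum.elim_zero_zero, add_zero]; rfl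
  have h1 := nb_cos hA hXc hD hψ
  have h2 := ok_cs hA hD 0
  have h3 := cen_cs hA hXc D
  simp only [e1, e2] at h1 h2 h3
  refine h1.trans (bias_narrow h2 h3 (H := B.G) hB (fun x => ?_) univ fun v => (hq.up 0).lin (hψ v))
  change qq (P057ST.dil D _) x ≤ qq (fromBlocks (fromBlocks (P057T1.gsc S.G _) 0 0 G) 0 0 X.G) x
  rw [P057ST.qq_dil, e1, qq_blocks, qq_blocks, P057T1.qq_gsc]
  refine (qq_blocks _ _ _).trans_le (add_le_add_left ((qq_blocks _ _ _).trans_le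
    (add_le_add_left (qq_scale_le h.pd.posSemidef (a := fun i => (d : ℝ) ^ (S.fc i ∩ univ).card)
      (fun i j e => by rw [(h.orth i j e).1]) (fun i j e => by rw [(h.orth i j e).1])
      (fun i => by gcongr) _) _)) _)

variable {fn' : κ' → Finset V} {G' : Matrix κ' κ' ℝ} {pn' : (ι → ℝ) → κ' → ℝ}
  {P : (ι ⊕ κ' → ℝ) → ι ⊕ κ → ℝ}

/-- the sum over the upper tiers -/
def ph (X : Xt V ι E) (ψ : (ι ⊕ E → ℝ) → ℝ) (y : ι → ℝ) : ℂ :=
  Ex X.G (fun u => X.g (Sum.elim y (toR u))) fun u => ee (ψ (Sum.elim y (toR u)))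

theorem EX_pull {ι' : Type} [Fintype ι'] [DecidableEq ι'] {S' : MS V ι'} {X : Xt V ι E}
    {P : (ι' → ℝ) → ι → ℝ} (h : S'.Ok) (hX : X.Ok S) (hP : Fmp S' S P) (r : ι → ℝ)
    (ψ : (ι ⊕ E → ℝ) → ℝ) {μ : (ι' → ℤ) → ℂ} {C : ℝ} (hμ : ∀ z, ‖μ z‖ ≤ C) :
    EX (xt S' (pull X P r)) (fun x => μ (x ∘ Sum.inl) * ee (ψ (up P (toR x) + Sum.elim r 0))) =
      EX S' fun y => μ y * ph X ψ (P (toR y) + r) := by
  rw [EX_xt h (ok_pull hX hP r) (C := C) fun z => by rw [norm_mul, norm_ee, mul_one]; exact hμ _]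
  have e : ∀ (y : ι' → ℤ) (u : E → ℤ), up P (jn y u) + Sum.elim r 0 =
      Sum.elim (P (toR y) + r) (toR u) := fun y u => by
    funext a; rcases a with i | e <;> simp [up, jn]
  congr 1
  funext y
  rw [ph, ← Ex_mul_const]
  simp only [pull, toR_elim, ← e]
  rfl

theorem ph_shift {ι' : Type} [Fintype ι'] [DecidableEq ι'] {S' : MS V ι'} {X : Xt V ι E}
    {P : (ι' → ℝ) → ι → ℝ} (h' : S'.Ok) (hc' : S'.Cen) (h : S.Ok) (hX : X.Ok S)
    (hXc : (xt S X).Cen) (hP : Fmp S' S P) (r : ι → ℝ) {ψ : (ι ⊕ E → ℝ) → ℝ}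
    (hψ : ∀ v, Lin ((xt S X).st v) ψ) :
    ‖EX S' fun y => ph X ψ (P (toR y) + r)‖ ≤ nb (xt S' (pull X P 0)) fun z => ψ (up P z) := by
  have h1 := EX_pull h' hX hP r ψ (μ := fun _ => 1) (C := 1) (by simp)
  simp only [one_mul] at h1
  rw [← h1]
  refine EX_shift (S := xt S' (pull X P 0)) (p := (xt S' (pull X P r)).p)
    (ok_xt h' (ok_pull hX hP r)) (fun z a => ?_) (fun v => (hP.up 0).aff (hψ v).aff _)
    fun z => (hP.up 0).alt_shift hXc.ne (fm_univ hψ) _ z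
  rcases a with i | e
  · exact congrFun (MS.alt_of_lin (S := xt S' (pull X P 0))
      fun v hv => fmp_inl.lin (h'.lin hc' hv)) z
  · refine ((hP.up 0).alt_shift hXc.ne (fm_p' (ok_xt h hX) hXc (Sum.inr e)) _ z).trans ?_
    change _ = X.g (_ + Sum.elim (0 : ι → ℝ) (0 : E → ℝ)) e
    rw [Sum.elim_zero_zero, add_zero]; rfl

/-- **transfer** through one tier -/
theorem tf_one (h : S.Ok) (hc : S.Cen) (ht : TopOk S fn G pn) (hX : X.Ok (top S fn G pn))
    (hXc : (xt (top S fn G pn) X).Cen) (d0 : 0 < d) (dl : (d : ℝ) ≤ lam)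
    (ht' : TopOk (dil S univ lam) fn' G' pn')
    (hP : Fmp (top (dil S univ lam) fn' G' pn') (top S fn G pn) P)
    (hi : ∀ i, IntV fun z => P z i) (hl : ∀ z, P z ∘ Sum.inl = scl S univ d (z ∘ Sum.inl))
    {ε r : ℝ} (e0 : 0 < ε) (e1 : ε ≤ 1 / 3)
    (hb : ∀ y, ln2 (top (dil S univ lam) fn' G' pn') univ y ≤ r →
      qq G (P y ∘ Sum.inr - pn (P y ∘ Sum.inl)) ≤ ε ^ 2)
    (hm : (top (dil S univ lam) fn' G' pn').mass univ ≤ 2)
    (hψ : ∀ v, Lin ((xt (top S fn G pn) X).st v) ψ) :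
    nb (xt (top S fn G pn) X) ψ ≤ th G⁻¹ 0 *
      (nb (xt (top (dil S univ lam) fn' G' pn') (pull X P 0)) (fun z => ψ (up P z)) + th X.G⁻¹ 0 *
        (26 * ε + 4 * (Real.exp (-(π * r / 2)) * √2 ^ Fintype.card (ι ⊕ κ')))) := by
  have d1 : (1 : ℝ) ≤ d := by exact_mod_cast d0
  have hS := ok_dil h univ (d1.trans dl)
  have hSc := cen_dil hc univ lam
  have ht1 := topOk_scl ht d lam
  have hT := ok_top hS ht1
  have hq := fmp_dq (S := S) (fn := fn) (G := G) (pn := pn) d lam fun z => pn (scl S univ d z)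
  have hB := ok_xt hT (ok_pull hX hq 0)
  have hBc := cen_pull (cen_top hS hSc ht1) hXc hq
  have h1 := ok_top hS ht'
  have h1c := cen_top hS hSc ht'
  have htC : TopOk (xt (top (dil S univ lam) fn G fun z => pn (scl S univ d z))
      (pull X (dq S d) 0)) fn' G' fun x => pn' ((x ∘ Sum.inl) ∘ Sum.inl) :=
    ⟨ht'.pd, ht'.ort, ht'.ne, fun j => fmp_inl.fm (fmp_top.fm (ht'.fm j))⟩
  refine (tf_dil h hc ht hX hXc d0 dl hψ).trans ((nb_top hB hBc htC
    fun v => (hq.up 0).lin (hψ v)).trans ((nb_le (ok_top hB htC) _).trans ?_))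
  have bΦ : ∀ y, ‖ph X ψ y‖ ≤ th X.G⁻¹ 0 := fun y => by
    simpa only [one_mul, ph] using Ex_fib hX y (C := 1) fun u => (norm_ee (ψ (Sum.elim y (toR u)))).le
  let μ : (ι → ℤ) → ℂ := fun z => ms G' fun _ => pn' (toR z)
  have bμ : ∀ z, ‖μ z‖ ≤ th G'⁻¹ 0 := fun z => by
    simpa only [Ex_one, one_mul] using Ex_far ht'.pd (pn' (toR z)) (f := fun _ => 1) (C := 1) (by simp)
  let Ψ : (ι → ℤ) → ℂ := fun z => Ex G (fun _ => pn (scl S univ d (toR z)))
    fun n => ph X ψ (Sum.elim (scl S univ d (toR z)) (toR n))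
  have bΨ : ∀ z, ‖Ψ z‖ ≤ th X.G⁻¹ 0 * th G⁻¹ 0 := fun z => Ex_far ht.pd _ fun _ => bΦ _
  have key : EX (top (xt (top (dil S univ lam) fn G fun z => pn (scl S univ d z))
      (pull X (dq S d) 0)) fn' G' fun x => pn' ((x ∘ Sum.inl) ∘ Sum.inl))
      (fun z => ee (ψ (up (dq S d) (toR z ∘ Sum.inl)))) =
      EX (top (dil S univ lam) fn' G' pn') fun y => Ψ (y ∘ Sum.inl) := by
    have a1 := EX_pull hT hX hq 0 ψ (μ := fun t => μ (t ∘ Sum.inl)) fun _ => bμ _
    simp only [Sum.elim_zero_zero, add_zero] at a1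
    rw [EX_top hB htC (C := 1) fun _ => (norm_ee _).le, EX_top hS ht' fun _ => bΨ _]
    refine Eq.trans (congrArg _ (funext fun b => Ex_const _ _ (ee (ψ (up (dq S d) (toR b)))))) (a1.trans ?_)
    rw [EX_top hS ht1 (C := th G'⁻¹ 0 * th X.G⁻¹ 0) fun _ => by
      rw [norm_mul]; exact mul_le_mul (bμ _) (bΦ _) (norm_nonneg _) (th_nonneg _ _)]
    congr 1
    funext z
    exact (Ex_mul_const _ _ _ (μ z)).trans (Ex_const _ _ (Ψ z)).symm
  let Ψ1 : (ι ⊕ κ' → ℤ) → ℂ := fun y => Ex G (fun _ => 0)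
    fun m => ph X ψ (P (toR y) + Sum.elim (0 : ι → ℝ) (toR m))
  have bΨ1 : ∀ z, ‖Ψ1 z‖ ≤ th X.G⁻¹ 0 * th G⁻¹ 0 := fun z => Ex_far ht.pd _ fun _ => bΦ _
  have k1 : ‖EX (top (dil S univ lam) fn' G' pn') Ψ1‖ ≤ _ := Ex_swap h1.pd ht.pd (tri h1)
    (fun _ _ => bΦ _) fun m => ph_shift h1 h1c (ok_top h ht) hX hXc hP _ hψ
  have p1 := th_nonneg X.G⁻¹ 0
  have p2 := th_nonneg G⁻¹ 0
  have k2 := norm_EX_tail h1 h1c (f := fun y => Ψ (y ∘ Sum.inl) - Ψ1 y)
    (a := th X.G⁻¹ 0 * (13 * ε) * th G⁻¹ 0) (b := 2 * (th X.G⁻¹ 0 * th G⁻¹ 0)) (r := r)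
    (by positivity) fun y => by
      split_ifs with hy
      · have := (norm_sub_le _ _).trans (add_le_add (bΨ (y ∘ Sum.inl)) (bΨ1 y))
        have p3 : 0 ≤ th X.G⁻¹ 0 * (13 * ε) * th G⁻¹ 0 := by positivity
        linarith
      · choose M hM using fun j => hi (Sum.inr j) y
        have e2 : P (toR y) = Sum.elim (scl S univ d (toR (y ∘ Sum.inl))) (toR M) := by
          rw [← Sum.elim_comp_inl_inr (P (toR y)), hl]
          exact congrArg _ (funext hM)
        have e3 := hb _ (not_le.1 hy).le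
        rw [e2, ← qq_neg, neg_sub] at e3
        have e4 := Ex_shift ht.pd e0 e1 e3
          (f := fun m => ph X ψ (P (toR y) + Sum.elim (0 : ι → ℝ) (toR m))) fun _ => bΦ _
        rw [mul_zero, add_zero]
        refine le_of_eq_of_le ?_ e4
        congr 2
        refine (Ex_move G _ M _).trans (congrArg _ (funext fun m => congrArg _ ?_))
        rw [e2, toR_add, ← Sum.elim_add_add, add_zero]
  rw [EX, Ex_sub (tri h1) h1.pd (fun y => bΨ _) bΨ1] at k2
  have k3 := (norm_le_norm_add_norm_sub' _ _).trans (add_le_add k1 (k2.trans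
    (mul_le_mul_of_nonneg_left hm (by positivity))))
  change ‖EX _ fun z => ee (ψ (up (dq S d) (toR z ∘ Sum.inl)))‖ ≤ _
  rw [key]
  refine k3.trans (le_of_eq ?_)
  ring

end

end Vale.Agent.P057CO
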